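import Vale.Agent.P092.H35.Mx.KAll
import Vale.Agent.P092.H560.Mx.NeM
import Vale.Agent.P092.H962.MX.PMa

/-!
P092 (helper971), project MIX, [PN]: the N-half of `MixStmt`, all `t`: `MX.ExN` for every lattice of
`EM k N G = ∏ PGL_(N j + 1)(k j) × ∏ G b` with discrete projections to the first and dense
projections to the second factors.
-/

set_option linter.all false

open scoped InnerProductSpace ENNReal LinearAlgebra.Projectivization ZeroAtInfty
open Filter Topology ContinuousLinearMap MeasureTheory TopologicalSpace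

namespace Vale.Agent.P092.VM

open Vale.Agent.P092.MX (EM iM pM ExN KCalAll)
open Vale.Agent.P092.VR (Ov IsRad)
open Vale.Agent.P092.H333.V
open Vale.Agent.P092.H962.MX (pT)

/-- **The N-half of MIX.** -/
theorem exN_M {J B : Type} [Fintype J] [DecidableEq J] [Fintype B] (k : J → Type)
    [∀ j, NontriviallyNormedField (k j)] [∀ j, ProperSpace (k j)] (N : J → ℕ) {M G : B → Type}
    [∀ b, Group (M b)] [∀ b, TopologicalSpace (M b)] [∀ b, Group (G b)]
    [∀ b, TopologicalSpace (G b)] [∀ b, IsTopologicalGroup (G b)] [∀ b, T2Space (G b)]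
    [∀ b, LocallyCompactSpace (G b)] [∀ b, SecondCountableTopology (G b)]
    {φ : ∀ b, M b →* G b} {r : B → ℕ} {R : ∀ b, Subgroup (G b)} [∀ b, (R b).Normal]
    (hk : ∀ j, UN.LocK (k j)) (hN : ∀ j, 2 ≤ N j) (hn : ∀ j, ((N j + 1 : ℕ) : k j) ≠ 0)
    (hO : ∀ b, Ov (φ b) (r b)) (hR : ∀ b, IsRad (φ b) (R b)) (Γ : Subgroup (EM k N G))
    (hicc : SR.St.ICC Γ) (hd : ∀ b, DenseRange fun γ : Γ => (γ : EM k N G).2 b)
    (hD : ∀ j, DiscreteTopology (Set.range fun γ : Γ => (γ : EM k N G).1 j))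
    (hlat : H515.St.IsLattice Γ) : ExN (iM k N G) Γ (pT R Γ) := by
  classical
  haveI := fun b => (hR b).fin
  haveI := fun b => tg_quo (hO b) (hR b)
  haveI := fun b => lc_quo (hO b) (hR b)
  haveI := fun b => sc_quo (hO b) (hR b)
  haveI := fun b => t2_quo (hO b) (hR b)
  letI : ∀ b, MeasurableSpace (G b ⧸ R b) := fun b => borel _
  haveI : ∀ b, BorelSpace (G b ⧸ R b) := fun b => ⟨rfl⟩
  haveI : ∀ b, (Measure.haar : Measure (G b ⧸ R b)).IsMulRightInvariant := fun b =>
    rinv_quo (hO b) (hR b) _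
  letI : MeasurableSpace (EM k N G) := borel _
  haveI : BorelSpace (EM k N G) := ⟨rfl⟩
  haveI : DiscreteTopology Γ := hlat.disc
  haveI : Countable Γ := TopologicalSpace.separableSpace_iff_countable.1 inferInstance
  obtain ⟨m, hm⟩ := H560.Mx.lat_M k N Γ hlat
  obtain ⟨he, hE, hne⟩ := H560.Mx.data_M k N hk hN hn hO hR Γ hicc hd hD hlat
    (fun b => (Measure.haar : Measure (G b ⧸ R b)))
  have h1 : ∀ b, Continuous ((QuotientGroup.mk' (R b)).comp (pM k N G b)) := fun b =>
    QuotientGroup.continuous_mk.comp ((continuous_apply b).comp continuous_snd)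
  have h2 : ∀ b j g, (QuotientGroup.mk' (R b)).comp (pM k N G b) (iM k N G j g) = 1 := by
    intro b j g
    change (QuotientGroup.mk' (R b)) (pM k N G b (iM k N G j g)) = 1
    rw [MX.pM_iM, map_one]
  have h3 : ∀ b b' : B, b ≠ b' → ∀ x : G b ⧸ R b, ∃ e : EM k N G,
      (QuotientGroup.mk' (R b)).comp (pM k N G b) e = x ∧
        (QuotientGroup.mk' (R b')).comp (pM k N G b') e = 1 := by
    intro b b' hb x
    obtain ⟨g, rfl⟩ := QuotientGroup.mk'_surjective (R b) x
    refine ⟨(1, Pi.mulSingle b g), ?_, ?_⟩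
    · change (QuotientGroup.mk' (R b)) ((Pi.mulSingle b g : ∀ b, G b) b) = _
      rw [Pi.mulSingle_eq_same]
    · change (QuotientGroup.mk' (R b')) ((Pi.mulSingle b g : ∀ b, G b) b') = _
      rw [Pi.mulSingle_eq_of_ne (Ne.symm hb), map_one]
  have h4 : ∀ b, DenseRange (pT R Γ b) := fun b =>
    (QuotientGroup.mk'_surjective (R b)).denseRange.comp (hd b) QuotientGroup.continuous_mk
  exact @MX.exN_of _ _ _ _ _ k _ N _ _ _ _ _ _ _ _ _ _ _ _ _ _
    (@H35.Mx.kcalAll J k _ N (EM k N G) _ _ _ _ _ _ _ _ Γ B _ (fun b => G b ⧸ R b)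
      _ _ _ _ _ _ _ _ VR.blkV (iM k N G) hicc (pT R Γ) (fun b => Measure.haar) _ _
      (fun b => (QuotientGroup.mk' (R b)).comp (pM k N G b)) h1 (fun b γ => rfl) h2 h3 m hm
      (fun b => facV_quo (hO b) (hR b)) h4 he hE hne)

end Vale.Agent.P092.VM
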