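import Vale.Agent.P092.VM.Cal2
import Vale.Agent.P092.QT.Q.Main

/-!
P092 (helper971), project MIX, (M2): the dense places of a lattice in a product with other factors.
`Γ` is a lattice in `E`, `p i = π i ∘ q` are the dense places.
-/

set_option linter.all false

open MeasureTheory Filter Topology ContinuousLinearMap
open scoped InnerProductSpace ENNReal ZeroAtInfty

namespace Vale.Agent.P092.VM

open Vale.Agent.P092.H160 (Cmm)
open Vale.Agent.P092.QT.H156
open Vale.Agent.P092.QT.H156.Sm (Frm Fd Smo ip)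
open Vale.Agent.P092.QT.H715.Q (Dbl fl F1 TwS)
open Vale.Agent.P092.PA (Lat)
open Vale.Agent.P092.VR (FacV)
open Vale.Agent.P092.QT.Q (Esc)

/-- the calculus of one place, `t : E →* G` the coordinate of the source group -/
structure UCal {Γ X K G E : Type} [Group Γ] [Group X] [Group E]
    [NormedAddCommGroup K] [InnerProductSpace ℂ K] [CompleteSpace K]
    [Group G] [TopologicalSpace G] (V : Γ →* (K →L[ℂ] K)) (ρ : X →* (K →L[ℂ] K)) (ι : X →* G)
    (q : Γ →* E) (t : E →* G) (P : C₀(G, ℂ) →⋆ₙₐ[ℂ] (K →L[ℂ] K)) : Prop where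
  nd : ∀ ζ, (∀ ψ, P ψ ζ = 0) → ζ = 0
  cov : ∀ x (ψ ψ' : C₀(G, ℂ)), (∀ y, ψ' y = ψ ((ι x)⁻¹ * y)) → ρ x * P ψ * ρ x⁻¹ = P ψ'
  vcov : ∀ v (ψ ψ' : C₀(G, ℂ)), (∀ y, ψ' y = ψ (y * t (q v))) → V v * P ψ * V v⁻¹ = P ψ'

variable {Γ X Y K E I : Type} [Group Γ] [Countable Γ] [Group X] [Countable X] [Group Y] [Countable Y]
  [NormedAddCommGroup K] [InnerProductSpace ℂ K] [CompleteSpace K] [Fintype I] {G : I → Type}
  [∀ i, Group (G i)] [∀ i, TopologicalSpace (G i)] [∀ i, IsTopologicalGroup (G i)]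
  [∀ i, LocallyCompactSpace (G i)] [∀ i, SecondCountableTopology (G i)] [∀ i, T2Space (G i)]
  [∀ i, MeasurableSpace (G i)] [∀ i, BorelSpace (G i)]
  [Group E] [TopologicalSpace E] [IsTopologicalGroup E] [LocallyCompactSpace E]
  [SecondCountableTopology E] [T2Space E] [MeasurableSpace E] [BorelSpace E]

/-- **(M2)** the calculi of all the dense places, both legs. -/
theorem legs_two (B : VR.Q.Blk) {V : Γ →* (K →L[ℂ] K)} {R : Bool → Γ →* (K →L[ℂ] K)}
    {f : Bool → X →* Γ} {ρ : X →* (K →L[ℂ] K)} {f' : Bool → Y →* Γ}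
    {ρ' : Bool → Y →* (K →L[ℂ] K)} {ω : K} {ω' : Bool → K} (p : ∀ i, Γ →* G i)
    (μ : ∀ i, Measure (G i)) [∀ i, (μ i).IsHaarMeasure] [∀ i, (μ i).IsMulRightInvariant]
    (m : Measure E) {q : Γ →* E} (lat : Lat q m) {π : ∀ i, E →* G i} (hπ : ∀ i, Continuous (π i))
    (hq : ∀ i g, p i g = π i (q g))
    (hsep : ∀ i j, i ≠ j → ∀ k : G i, ∃ e : E, π i e = k ∧ π j e = 1)
    (fac : ∀ i, FacV (G i)) (hd : ∀ i, DenseRange (p i)) (he : ∀ i k, i ≠ k → Esc (p i) (p k))
    (h : ∀ l, Dbl V (R l) (f l) ρ (f' l) (ρ' l) ω (ω' l))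
    (hR : ∀ g k, R false g * R true k = R true k * R false g)
    (hρ : ∀ x, ∃ n, (∀ l, f l n = 1) ∧ ρ x = R false (f false x) * R true (f true x) * ρ n)
    (hs : ∀ l, Function.Surjective (f l))
    (t : ∀ l i j, F1 ((p j).comp (f l)) (p i) ρ V ω (μ j))
    (t' : ∀ l i j, F1 ((p i).comp (f' l)) (p j) (ρ' l) (R l) (ω' l) (μ i))
    (n : ∀ l i, ∃ j a, Smo ((p j).comp (f l)) (p i) ρ V ω (μ j) a ∧ a ≠ 0)
    (n' : ∀ l j, ∃ i b, Smo ((p i).comp (f' l)) (p j) (ρ' l) (R l) (ω' l) (μ i) b ∧ b ≠ 0) :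
    ∃ (P : Bool → ∀ j, C₀(G j, ℂ) →⋆ₙₐ[ℂ] (K →L[ℂ] K)) (τ : Bool → ∀ j, E →* G j),
      (∀ l j, Continuous (τ l j)) ∧ (∀ l j e, (∀ i, π i e = 1) → τ l j e = 1) ∧
      (∀ l j, UCal V ρ ((p j).comp (f l)) q (τ l j) (P l j)) ∧
      ∀ l l' j k ψ φ, Commute (P l j ψ) (P l' k φ) := by
  classical
  have hl := fun l => B.base.leg p μ (h l) hd he (t l) (t' l) (n l) (n' l)
  choose σ hσ s using hl
  have hdd : ∀ l j, DenseRange ((p j).comp (f l)) := fun l j => by
    have e : Set.range ((p j).comp (f l)) = Set.range (p j) := by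
      rw [MonoidHom.coe_comp]
      exact (hs l).range_comp _
    rw [DenseRange, e]
    exact hd j
  -- different source places
  have c3 : ∀ (l l' : Bool) (j k : I), σ l j ≠ σ l' k →
      ∀ a b, TwS V (f l) ρ ω (ω' l) (p j) (p (σ l j)) (μ j) (μ (σ l j)) a →
        TwS V (f l') ρ ω (ω' l') (p k) (p (σ l' k)) (μ k) (μ (σ l' k)) b → ∀ x y, a x * b y = b y * a x := by
    intro l l' j k hne a b ha hb
    exact B.c3 Γ X Y K (G j) (G k) (G (σ l j)) (G (σ l' k)) E V (R l) (f l) ρ (f' l)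
      (ρ' l) ω (ω' l) (p j) (p (σ l j)) (p (σ l' k)) ((p k).comp (f l')) q
      (π (σ l j)) (π (σ l' k)) (μ j) (μ k) (μ (σ l j)) m (h l)
      (hd _) (hd _) (hd _) (hdd _ _) (fac _) (fac _) (hπ _) (hπ _)
      (hsep _ _ hne) (fun g => hq _ g) (fun g => hq _ g) lat
      (t l _ _) (t' l _ _) (t l' _ _) (s l j) a b ha hb.smo
  have c : ∀ (l l' : Bool) (j k : I),
      ∀ a b, TwS V (f l) ρ ω (ω' l) (p j) (p (σ l j)) (μ j) (μ (σ l j)) a →
        TwS V (f l') ρ ω (ω' l') (p k) (p (σ l' k)) (μ k) (μ (σ l' k)) b → ∀ x y, a x * b y = b y * a x := by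
    intro l l' j k a b ha hb
    by_cases hne : σ l j = σ l' k
    · by_cases hl : l = l'
      · subst hl
        have hjk : j = k := hσ l hne
        subst hjk
        exact B.c1 Γ X Y K (G j) (G (σ l j)) V (R l) (f l) ρ (f' l) (ρ' l) ω (ω' l) (p j) (p (σ l j)) (μ j)
          (μ (σ l j)) (h l) (hd _) (hd _) (fac _) (fac _) (t l _ _) (t' l _ _) (s l j) a b ha hb
      · have hs' := s l' k
        have t1 := t l' (σ l' k) k
        have t2 := t' l' (σ l' k) k
        rw [← hne] at hb hs' t1 t2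
        have hρ' : ∀ x, ∃ n, f l n = 1 ∧ f l' n = 1 ∧ ρ x = R l (f l x) * R l' (f l' x) * ρ n := by
          intro x
          obtain ⟨n, hn, e⟩ := hρ x
          refine ⟨n, hn l, hn l', ?_⟩
          rw [e]
          cases l <;> cases l'
          · exact absurd rfl hl
          · rfl
          · rw [hR]
          · exact absurd rfl hl
        have hR' : ∀ g k, R l g * R l' k = R l' k * R l g := by
          intro g k
          cases l <;> cases l'
          · exact absurd rfl hl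
          · exact hR _ _
          · exact (hR _ _).symm
          · exact absurd rfl hl
        exact B.c2 Γ X Y Y K (G j) (G k) (G (σ l j)) V (R l) (R l') (f l) (f l') ρ (f' l) (ρ' l)
          (f' l') (ρ' l') ω (ω' l) (ω' l') (p j) (p k) (p (σ l j)) (μ j) (μ k) (μ (σ l j)) (h l) (h l') hR' hρ'
          (hd _) (hd _) (hd _) (fac _) (fac _) (fac _) (t l _ _) (t' l _ _) t1 t2 (s l j) hs'
          a b ha hb
    · exact c3 l l' j k hne a b ha hb
  have key := fun l j => exists_pcal (h l) (hd (σ l j)) (hdd l j) (fac j) (t l (σ l j) j)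
    (t' l (σ l j) j) (s l j) (fun a b ha hb x y => c l l j j a b ha hb x y)
  choose F θ hθ hF using key
  refine ⟨fun l j => F l j 1, fun l j => (θ l j).comp (π (σ l j)), fun l j => (hθ l j).comp (hπ _),
    fun l j e he => ?_, fun l j => ⟨(hF l j).nd 1, fun x ψ ψ' hψ => (hF l j).cov x 1 ψ ψ' hψ,
      fun v ψ ψ' hψ => ?_⟩, fun l l' j k ψ φ => ?_⟩
  · rw [MonoidHom.comp_apply, he, map_one]
  · rw [(hF l j).conj v 1 ψ, mul_one, ← one_mul (p (σ l j) v)]
    exact (hF l j).tr 1 (p (σ l j) v) ψ ψ' fun y => by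
      rw [hψ, MonoidHom.comp_apply, ← hq]
  · exact ((hF l' k).bi (F l j 1 ψ) (fun b hb y =>
      ((hF l j).bi (b y) (fun a ha x => (c l l' j k a b ha hb x y).symm) 1 ψ).symm) 1 φ)

end Vale.Agent.P092.VM
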