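import Vale.Agent.P092.VM.Fld

/-!
P092 (helper971), project MIX: the calculus of `C₀(G)` from the two sided fields, with its
translates by the second group.
-/

set_option linter.all false

open MeasureTheory Filter Topology ContinuousLinearMap
open scoped InnerProductSpace ENNReal ZeroAtInfty BoundedContinuousFunction

namespace Vale.Agent.P092.VM

open Vale.Agent.P092.H160 (Cmm)
open Vale.Agent.P092.QT.H156
open Vale.Agent.P092.QT.H156.Sm (Frm Fd Smo ip ACont L2)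
open Vale.Agent.P092.QT.H715.Q (Dbl fl F1 TwS)
open Vale.Agent.P092.QT.H650
open Vale.Agent.P092.VR (FacV)

/-- **The calculus of one place**: `F h` is the calculus of `C₀(G)`, moved by `h : H`. -/
structure PCal {Γ X K G H : Type} [Group Γ] [Group X]
    [NormedAddCommGroup K] [InnerProductSpace ℂ K] [CompleteSpace K]
    [Group G] [TopologicalSpace G] [Group H] [TopologicalSpace H]
    (V : Γ →* (K →L[ℂ] K)) (ρ : X →* (K →L[ℂ] K)) (ι : X →* G) (κ : Γ →* H)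
    (𝒯 : Set (G → (K →L[ℂ] K))) (F : H → (C₀(G, ℂ) →⋆ₙₐ[ℂ] (K →L[ℂ] K))) (θ : H → G) : Prop where
  cont : ∀ ψ, Continuous fun h => F h ψ
  tr : ∀ k h (ψ ψ' : C₀(G, ℂ)), (∀ x, ψ' x = ψ (x * θ h)) → F (k * h) ψ = F k ψ'
  conj : ∀ v h ψ, V v * F h ψ * V v⁻¹ = F (κ v * h) ψ
  cov : ∀ x h (ψ ψ' : C₀(G, ℂ)), (∀ y, ψ' y = ψ ((ι x)⁻¹ * y)) → ρ x * F h ψ * ρ x⁻¹ = F h ψ'
  nd : ∀ h ζ, (∀ ψ, F h ψ ζ = 0) → ζ = 0
  bi : ∀ T : K →L[ℂ] K, (∀ a ∈ 𝒯, ∀ y, Commute T (a y)) → ∀ h ψ, Commute T (F h ψ)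

/-- right translate -/
noncomputable def rtr {G : Type} [Group G] [TopologicalSpace G] [IsTopologicalGroup G] (t : G)
    (ψ : C₀(G, ℂ)) : C₀(G, ℂ) where
  toFun x := ψ (x * t)
  continuous_toFun := by fun_prop
  zero_at_infty' := ψ.zero_at_infty'.comp (Homeomorph.mulRight t).isClosedEmbedding.tendsto_cocompact

@[simp] theorem rtr_apply {G : Type} [Group G] [TopologicalSpace G] [IsTopologicalGroup G] (t : G)
    (ψ : C₀(G, ℂ)) (x : G) : rtr t ψ x = ψ (x * t) := rfl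

section main

variable {Γ X Y K G H : Type} [Group Γ] [Countable Γ] [Group X] [Countable X] [Group Y] [Countable Y]
    [NormedAddCommGroup K] [InnerProductSpace ℂ K] [CompleteSpace K]
    [Group G] [TopologicalSpace G] [IsTopologicalGroup G] [LocallyCompactSpace G]
    [SecondCountableTopology G] [T2Space G] [MeasurableSpace G] [BorelSpace G]
    [Group H] [TopologicalSpace H] [IsTopologicalGroup H] [LocallyCompactSpace H]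
    [SecondCountableTopology H] [T2Space H] [MeasurableSpace H] [BorelSpace H]
    {V W : Γ →* (K →L[ℂ] K)} {f : X →* Γ} {ρ : X →* (K →L[ℂ] K)} {f' : Y →* Γ}
    {ρ' : Y →* (K →L[ℂ] K)} {ω ω' : K} {p : Γ →* G} {κ : Γ →* H}
    {μ : Measure G} [μ.IsHaarMeasure] [μ.IsMulRightInvariant]
    {ν : Measure H} [ν.IsHaarMeasure] [ν.IsMulRightInvariant]

/-- the norm square of a field is scalar -/
theorem f1_sq {ι : X →* G} (hF : Frm ρ V ω) (t : F1 ι κ ρ V ω μ) {b : G → (K →L[ℂ] K)}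
    (hb : Smo ι κ ρ V ω μ b) : ∃ c : ℝ, ∀ ζ, Integrable (fun x => ‖b x ζ‖ ^ 2) μ ∧
      ∫ x, ‖b x ζ‖ ^ 2 ∂μ = c * ‖ζ‖ ^ 2 := by
  refine ⟨(ip ω μ b b).re, fun ζ => ?_⟩
  obtain ⟨h1, h2⟩ := t b b hb hb ζ ζ
  refine ⟨h1.integrable_norm_pow (by norm_num), ?_⟩
  have h3 : ∫ x, ⟪b x ζ, b x ζ⟫_ℂ ∂μ = ((∫ x, ‖b x ζ‖ ^ 2 ∂μ : ℝ) : ℂ) := by
    rw [← integral_complex_ofReal]
    refine integral_congr_ae (Eventually.of_forall fun x => ?_)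
    simp only [inner_self_eq_norm_sq_to_K]
    norm_cast
  rw [h3, inner_self_eq_norm_sq_to_K] at h2
  have h4 := congrArg Complex.re h2
  rw [Complex.ofReal_re, Complex.mul_re] at h4
  have e1 : (((‖ζ‖ : ℂ)) ^ 2).re = ‖ζ‖ ^ 2 := by
    rw [← Complex.ofReal_pow, Complex.ofReal_re]
  have e2 : (((‖ζ‖ : ℂ)) ^ 2).im = 0 := by
    rw [← Complex.ofReal_pow, Complex.ofReal_im]
  simpa [e1, e2] using h4

end main

section two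

variable {Γ X K G H : Type} [Group Γ] [Group X]
    [NormedAddCommGroup K] [InnerProductSpace ℂ K] [CompleteSpace K]
    [Group G] [TopologicalSpace G] [IsTopologicalGroup G] [LocallyCompactSpace G]
    [SecondCountableTopology G] [T2Space G] [MeasurableSpace G] [BorelSpace G]
    [Group H] [TopologicalSpace H] [IsTopologicalGroup H] [LocallyCompactSpace H]
    [SecondCountableTopology H] [T2Space H] [MeasurableSpace H] [BorelSpace H]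
    {V : Γ →* (K →L[ℂ] K)} {ρ : X →* (K →L[ℂ] K)} {ω : K} {ι : X →* G} {κ : Γ →* H}
    {μ : Measure G} [μ.IsHaarMeasure] {ν : Measure H} [ν.IsHaarMeasure]
    {𝒯 : Set (G → (K →L[ℂ] K))}

theorem cont_rtH (hF : Frm ρ V ω) (hadj : ∀ a ∈ 𝒯, (fun x => adjoint (a x)) ∈ 𝒯)
    (b : fieldAlg ι κ hF 𝒯 hadj) : Continuous fun y => rtH hF hadj y b := by
  refine continuous_induced_rng.2 ?_
  rw [continuous_iff_continuousAt]
  intro z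
  rw [ContinuousAt, tendsto_iff_norm_sub_tendsto_zero, Metric.tendsto_nhds]
  intro ε hε
  filter_upwards [rt_unif b.2.fd z (half_pos hε)] with y hy
  rw [dist_zero_right, norm_norm]
  refine lt_of_le_of_lt ?_ (half_lt_self hε)
  change ‖(rtH hF hadj y b).1 - (rtH hF hadj z b).1‖ ≤ ε / 2
  rw [BoundedContinuousFunction.norm_le (by positivity)]
  exact hy

theorem cont_alH (hF : Frm ρ V ω) (hκ : DenseRange κ)
    (hadj : ∀ a ∈ 𝒯, (fun x => adjoint (a x)) ∈ 𝒯)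
    (hcj : ∀ a ∈ 𝒯, ∀ g, (fun x => V g * a x * V g⁻¹) ∈ 𝒯)
    (b : fieldAlg ι κ hF 𝒯 hadj) : Continuous fun h => alH hF hκ hadj hcj h b := by
  refine continuous_induced_rng.2 ?_
  rw [continuous_iff_continuousAt]
  intro k
  rw [ContinuousAt, tendsto_iff_norm_sub_tendsto_zero, Metric.tendsto_nhds]
  intro ε hε
  filter_upwards [al_unif' hF hκ b.2.ac k (half_pos hε)] with h hh
  rw [dist_zero_right, norm_norm]
  refine lt_of_le_of_lt ?_ (half_lt_self hε)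
  change ‖(alH hF hκ hadj hcj h b).1 - (alH hF hκ hadj hcj k b).1‖ ≤ ε / 2
  rw [BoundedContinuousFunction.norm_le (by positivity)]
  exact hh

theorem rtH_one (hF : Frm ρ V ω) (hadj : ∀ a ∈ 𝒯, (fun x => adjoint (a x)) ∈ 𝒯)
    (b : fieldAlg ι κ hF 𝒯 hadj) : rtH hF hadj 1 b = b := by
  ext1; ext1 x
  exact congrArg b.1 (mul_one x)

theorem rtH_mul (hF : Frm ρ V ω) (hadj : ∀ a ∈ 𝒯, (fun x => adjoint (a x)) ∈ 𝒯) (g h : G)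
    (b : fieldAlg ι κ hF 𝒯 hadj) :
    rtH hF hadj (g * h) b = rtH hF hadj g (rtH hF hadj h b) := by
  ext1; ext1 x
  exact congrArg b.1 (mul_assoc x g h).symm

theorem alH_one (hF : Frm ρ V ω) (hκ : DenseRange κ)
    (hadj : ∀ a ∈ 𝒯, (fun x => adjoint (a x)) ∈ 𝒯)
    (hcj : ∀ a ∈ 𝒯, ∀ g, (fun x => V g * a x * V g⁻¹) ∈ 𝒯)
    (b : fieldAlg ι κ hF 𝒯 hadj) : alH hF hκ hadj hcj 1 b = b := by
  ext1; ext1 x
  exact al_one hF hκ b.2.ac x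

theorem alH_mul (hF : Frm ρ V ω) (hκ : DenseRange κ)
    (hadj : ∀ a ∈ 𝒯, (fun x => adjoint (a x)) ∈ 𝒯)
    (hcj : ∀ a ∈ 𝒯, ∀ g, (fun x => V g * a x * V g⁻¹) ∈ 𝒯) (g h : H)
    (b : fieldAlg ι κ hF 𝒯 hadj) :
    alH hF hκ hadj hcj (g * h) b = alH hF hκ hadj hcj g (alH hF hκ hadj hcj h b) := by
  ext1; ext1 x
  exact (al_al hF hκ b.2.ac g h x).symm

/-- the structure of the algebra -/
@[reducible] noncomputable def ccs (hF : Frm ρ V ω) (hadj : ∀ a ∈ 𝒯, (fun x => adjoint (a x)) ∈ 𝒯)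
    (hcom : ∀ a ∈ 𝒯, ∀ b ∈ 𝒯, ∀ x y, a x * b y = b y * a x) :
    CommCStarAlgebra (fieldAlg ι κ hF 𝒯 hadj) :=
  haveI hcl : IsClosed (fieldAlg ι κ hF 𝒯 hadj : Set (G →ᵇ (K →L[ℂ] K))) :=
    isClosed_fieldAlg hF hadj
  { (inferInstance : CStarAlgebra (fieldAlg ι κ hF 𝒯 hadj)) with
    mul_comm := fun a b => by
      ext1; ext1 x
      exact (Okf.comm hcom a.2 b.2 x x).eq }

theorem exists_L (hF : Frm ρ V ω) (hκ : DenseRange κ) (hι : DenseRange ι)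
    (hadj : ∀ a ∈ 𝒯, (fun x => adjoint (a x)) ∈ 𝒯)
    (hcj : ∀ a ∈ 𝒯, ∀ g, (fun x => V g * a x * V g⁻¹) ∈ 𝒯)
    (hcom : ∀ a ∈ 𝒯, ∀ b ∈ 𝒯, ∀ x y, a x * b y = b y * a x)
    (a₁ : fieldAlg ι κ hF 𝒯 hadj) (ha₁ : a₁ ≠ 0)
    (hi : ∀ s : fieldAlg ι κ hF 𝒯 hadj, ∃ c : ℝ, ∀ ζ,
      Integrable (fun x => ‖evH hF hadj (rtH hF hadj x (s * a₁)) ζ‖ ^ 2) μ ∧
      ∫ x, ‖evH hF hadj (rtH hF hadj x (s * a₁)) ζ‖ ^ 2 ∂μ = c * ‖ζ‖ ^ 2)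
    (hi' : ∀ s : fieldAlg ι κ hF 𝒯 hadj, ∃ c : ℝ, ∀ ζ,
      Integrable (fun x => ‖evH hF hadj (alH hF hκ hadj hcj x (s * a₁)) ζ‖ ^ 2) ν ∧
      ∫ x, ‖evH hF hadj (alH hF hκ hadj hcj x (s * a₁)) ζ‖ ^ 2 ∂ν = c * ‖ζ‖ ^ 2)
    (big : ∀ N : Subgroup G, N.Normal → N ≠ ⊥ → ¬ IsCompact (N : Set G)) :
    ∃ (L : C₀(G, ℂ) →⋆ₙₐ[ℂ] fieldAlg ι κ hF 𝒯 hadj) (θ : H →* G), Continuous θ ∧
      (∀ ζ, (∀ ψ, evH hF hadj (L ψ) ζ = 0) → ζ = 0) ∧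
      (∀ g (ψ ψ' : C₀(G, ℂ)), (∀ x, ψ' x = ψ (g⁻¹ * x)) → rtH hF hadj g (L ψ) = L ψ') ∧
      ∀ h (ψ ψ' : C₀(G, ℂ)), (∀ x, ψ' x = ψ (x * θ h)) → alH hF hκ hadj hcj h (L ψ) = L ψ' := by
  letI := ccs (ι := ι) (κ := κ) hF hadj hcom
  have h0 := evH_inj (ι := ι) (κ := κ) (V := V) hF hι hadj
  have h1 := rtH_one (ι := ι) (κ := κ) (V := V) hF hadj
  have h2 := rtH_mul (ι := ι) (κ := κ) (V := V) hF hadj
  have h3 := cont_rtH (ι := ι) (κ := κ) (V := V) hF hadj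
  have h4 := alH_one (ι := ι) (κ := κ) hF hκ hadj hcj
  have h5 := alH_mul (ι := ι) (κ := κ) hF hκ hadj hcj
  have h6 := cont_alH (ι := ι) (κ := κ) hF hκ hadj hcj
  exact exists_calc (G := G) (H := H) (evH (ι := ι) (κ := κ) hF hadj) h0
    (r := fun y => rtH hF hadj y)
    (r' := fun h => alH hF hκ hadj hcj h) h1 h2 h3 h4 h5 h6 (fun g h b => rfl) μ ν ha₁ hi ha₁ hi'
    big

/-- the calculi -/
noncomputable def FF (hF : Frm ρ V ω) (hκ : DenseRange κ)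
    (hadj : ∀ a ∈ 𝒯, (fun x => adjoint (a x)) ∈ 𝒯)
    (hcj : ∀ a ∈ 𝒯, ∀ g, (fun x => V g * a x * V g⁻¹) ∈ 𝒯)
    (L : C₀(G, ℂ) →⋆ₙₐ[ℂ] fieldAlg ι κ hF 𝒯 hadj) (h : H) : C₀(G, ℂ) →⋆ₙₐ[ℂ] (K →L[ℂ] K) :=
  ((evH hF hadj : fieldAlg ι κ hF 𝒯 hadj →⋆ₐ[ℂ] (K →L[ℂ] K)) :
      fieldAlg ι κ hF 𝒯 hadj →⋆ₙₐ[ℂ] (K →L[ℂ] K)).comp
    (((alH hF hκ hadj hcj h : fieldAlg ι κ hF 𝒯 hadj →⋆ₐ[ℂ] fieldAlg ι κ hF 𝒯 hadj) :
      fieldAlg ι κ hF 𝒯 hadj →⋆ₙₐ[ℂ] fieldAlg ι κ hF 𝒯 hadj).comp L)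

theorem pcal_of_L (hF : Frm ρ V ω) (hκ : DenseRange κ)
    (hadj : ∀ a ∈ 𝒯, (fun x => adjoint (a x)) ∈ 𝒯)
    (hcj : ∀ a ∈ 𝒯, ∀ g, (fun x => V g * a x * V g⁻¹) ∈ 𝒯)
    (L : C₀(G, ℂ) →⋆ₙₐ[ℂ] fieldAlg ι κ hF 𝒯 hadj) (θ : H → G)
    (hnd : ∀ ζ, (∀ ψ, evH hF hadj (L ψ) ζ = 0) → ζ = 0)
    (hcov : ∀ g (ψ ψ' : C₀(G, ℂ)), (∀ x, ψ' x = ψ (g⁻¹ * x)) → rtH hF hadj g (L ψ) = L ψ')
    (htr : ∀ h (ψ ψ' : C₀(G, ℂ)), (∀ x, ψ' x = ψ (x * θ h)) →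
      alH hF hκ hadj hcj h (L ψ) = L ψ') :
    PCal V ρ ι κ 𝒯 (FF hF hκ hadj hcj L) θ := by
  have hFe : ∀ h ψ, FF hF hκ hadj hcj L h ψ = al κ V h (L ψ).1 1 := fun h ψ => rfl
  refine ⟨fun ψ => ?_, fun k h ψ ψ' hψ => ?_, fun v h ψ => ?_, fun x h ψ ψ' hψ => ?_,
    fun h ζ hζ => ?_, fun T hT h ψ => ?_⟩
  · exact continuous_al hF hκ (L ψ).2.ac 1
  · rw [hFe, hFe, ← htr h ψ ψ' hψ]
    exact (al_al hF hκ (L ψ).2.ac k h 1).symm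
  · rw [hFe, hFe, ← al_al hF hκ (L ψ).2.ac, al_coe hF hκ (acont_al hF hκ (L ψ).2.ac h)]
    rfl
  · have h1 := (fd_al hF hκ (L ψ).2.fd (L ψ).2.ac h).equiv x 1
    rw [mul_one] at h1
    rw [hFe, hFe, ← h1, ← hcov _ ψ ψ' hψ]
    change _ = al κ V h (fun y => (L ψ).1 (y * ι x)) 1
    rw [al_rt, one_mul]
  · refine hnd ζ fun ψ' => ?_
    have h1 := hζ (rtr (θ h)⁻¹ ψ')
    rw [hFe] at h1
    have h2 := htr h (rtr (θ h)⁻¹ ψ') ψ' (fun x => by rw [rtr_apply, mul_inv_cancel_right])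
    change (L ψ').1 1 ζ = 0
    rw [← h2]
    exact h1
  · exact ((L ψ).2.al_mem hF hκ hcj h).bi T hT 1

end two

end Vale.Agent.P092.VM
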