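import Vale.Agent.P092.VM.Cal

/-!
P092 (helper971), project MIX: the calculus of `C₀(G)` from the two sided fields.
-/

set_option linter.all false

open MeasureTheory Filter Topology ContinuousLinearMap
open scoped InnerProductSpace ENNReal ZeroAtInfty BoundedContinuousFunction

namespace Vale.Agent.P092.VM

open Vale.Agent.P092.H160 (Cmm)
open Vale.Agent.P092.QT.H156
open Vale.Agent.P092.QT.H156.Sm (Frm Fd Smo ip ACont L2)
open Vale.Agent.P092.QT.H715.Q (Dbl fl F1 TwS)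
open Vale.Agent.P092.QT.H650
open Vale.Agent.P092.VR (FacV)

section main

variable {Γ X Y K G H : Type} [Group Γ] [Countable Γ] [Group X] [Countable X] [Group Y] [Countable Y]
    [NormedAddCommGroup K] [InnerProductSpace ℂ K] [CompleteSpace K]
    [Group G] [TopologicalSpace G] [IsTopologicalGroup G] [LocallyCompactSpace G]
    [SecondCountableTopology G] [T2Space G] [MeasurableSpace G] [BorelSpace G]
    [Group H] [TopologicalSpace H] [IsTopologicalGroup H] [LocallyCompactSpace H]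
    [SecondCountableTopology H] [T2Space H] [MeasurableSpace H] [BorelSpace H]
    {V W : Γ →* (K →L[ℂ] K)} {f : X →* Γ} {ρ : X →* (K →L[ℂ] K)} {f' : Y →* Γ}
    {ρ' : Y →* (K →L[ℂ] K)} {ω ω' : K} {p : Γ →* G} {κ : Γ →* H}
    {μ : Measure G} [μ.IsHaarMeasure] [μ.IsMulRightInvariant]
    {ν : Measure H} [ν.IsHaarMeasure] [ν.IsMulRightInvariant]

/-- **the calculus of one pair of places** -/
theorem exists_pcal (D : Dbl V W f ρ f' ρ' ω ω') (hκ : DenseRange κ)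
    (hpf : DenseRange (p.comp f)) (fac : FacV G)
    (t : F1 (p.comp f) κ ρ V ω μ) (t' : F1 (κ.comp f') p ρ' W ω' ν)
    (ne : ∃ a, TwS V f ρ ω ω' p κ μ ν a ∧ a ≠ 0)
    (com : ∀ a b, TwS V f ρ ω ω' p κ μ ν a → TwS V f ρ ω ω' p κ μ ν b →
      ∀ x y, a x * b y = b y * a x) :
    ∃ F, ∃ θ : H →* G, Continuous θ ∧
      PCal V ρ (p.comp f) κ {a | TwS V f ρ ω ω' p κ μ ν a} F θ := by
  have hF := D.fr
  have hadj : ∀ a ∈ {a | TwS V f ρ ω ω' p κ μ ν a},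
      (fun x => adjoint (a x)) ∈ {a | TwS V f ρ ω ω' p κ μ ν a} := fun a ha => TwS.adj D hκ ha
  have hcj : ∀ a ∈ {a | TwS V f ρ ω ω' p κ μ ν a}, ∀ g,
      (fun x => V g * a x * V g⁻¹) ∈ {a | TwS V f ρ ω ω' p κ μ ν a} := by
    intro a ha g
    have h1 : TwS V f ρ ω ω' p κ μ ν (al κ V (κ g) a) := TwS.al D hκ ha (κ g)
    have h2 : al κ V (κ g) a = fun x => V g * a x * V g⁻¹ := by
      funext x
      exact al_coe D.fr hκ ha.smo.acont g x
    rw [h2] at h1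
    exact h1
  obtain ⟨a, ha, ha0⟩ := ne
  obtain ⟨a₁, ha₁⟩ : ∃ a₁ : fieldAlg (p.comp f) κ hF {a | TwS V f ρ ω ω' p κ μ ν a} hadj,
      ∀ x, a₁.1 x = a x :=
    ⟨⟨BoundedContinuousFunction.ofNormedAddCommGroup a ha.smo.toFd.continuous
      (Classical.choose ha.smo.toFd.bdd) (Classical.choose_spec ha.smo.toFd.bdd),
      Okf.of_mem (fun a ha => ⟨ha.smo.toFd, ha.smo.acont⟩) ha⟩, fun x => rfl⟩
  have ha₁f : (a₁.1 : G → (K →L[ℂ] K)) = a := funext ha₁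
  have ha₁0 : a₁ ≠ 0 := by
    rintro rfl
    exact ha0 (funext fun x => (ha₁ x).symm)
  have hi : ∀ s : fieldAlg (p.comp f) κ hF {a | TwS V f ρ ω ω' p κ μ ν a} hadj, ∃ c : ℝ, ∀ ζ,
      Integrable (fun x => ‖evH hF hadj (rtH hF hadj x (s * a₁)) ζ‖ ^ 2) μ ∧
      ∫ x, ‖evH hF hadj (rtH hF hadj x (s * a₁)) ζ‖ ^ 2 ∂μ = c * ‖ζ‖ ^ 2 := by
    intro s
    obtain ⟨c, hc⟩ := f1_sq hF t (TwS.mul_left D hκ s.2.fd s.2.ac ha).smo
    refine ⟨c, fun ζ => ?_⟩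
    have e : ∀ x, (evH hF hadj) (rtH hF hadj x (s * a₁)) = s.1 x * a x := by
      intro x
      change s.1 (1 * x) * a₁.1 (1 * x) = _
      rw [one_mul, ha₁]
    simp only [e]
    exact hc ζ
  have hi' : ∀ s : fieldAlg (p.comp f) κ hF {a | TwS V f ρ ω ω' p κ μ ν a} hadj, ∃ c : ℝ, ∀ ζ,
      Integrable (fun x => ‖evH hF hadj (alH hF hκ hadj hcj x (s * a₁)) ζ‖ ^ 2) ν ∧
      ∫ x, ‖evH hF hadj (alH hF hκ hadj hcj x (s * a₁)) ζ‖ ^ 2 ∂ν = c * ‖ζ‖ ^ 2 := by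
    intro s
    obtain ⟨c, hc⟩ := f1_sq D.fr' t' (TwS.smo' D hκ (TwS.mul_left D hκ s.2.fd s.2.ac ha))
    refine ⟨c, fun ζ => ?_⟩
    have e : ∀ h, (evH hF hadj) (alH hF hκ hadj hcj h (s * a₁)) =
        fl κ V (fun x => s.1 x * a x) h := by
      intro h
      change al κ V h (fun x => s.1 x * a₁.1 x) 1 = _
      rw [ha₁f]
      rfl
    simp only [e]
    exact hc ζ
  obtain ⟨L, θ, hθ, hnd, hcov, htr⟩ := exists_L hF hκ hpf hadj hcj
    (fun a ha b hb x y => com a b ha hb x y) a₁ ha₁0 hi hi' (fun N hn h0 => (fac.big N hn h0).2)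
  exact ⟨_, θ, hθ, pcal_of_L hF hκ hadj hcj L θ hnd hcov htr⟩

end main

end Vale.Agent.P092.VM
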