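import Vale.Agent.P092.VM.Pos

/-!
P092 (helper971), project MIX: a calculus of `C(Ω)` on which a group `G` acts with a square
integrable element has one open dense orbit.
-/

set_option linter.all false

open MeasureTheory Filter Topology ContinuousLinearMap
open scoped InnerProductSpace ENNReal Pointwise

namespace Vale.Agent.P092.VM

/-- A continuous action. -/
structure Act (G Ω : Type) [Group G] [TopologicalSpace G] [TopologicalSpace Ω] where
  u : G → Ω → Ω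
  one : ∀ ω, u 1 ω = ω
  mul : ∀ g h ω, u (g * h) ω = u g (u h ω)
  cont : Continuous fun q : G × Ω => u q.1 q.2

section act

variable {G Ω : Type} [Group G] [TopologicalSpace G] [TopologicalSpace Ω] (U : Act G Ω)

theorem Act.inv_u (g : G) (ω : Ω) : U.u g⁻¹ (U.u g ω) = ω := by
  rw [← U.mul, inv_mul_cancel, U.one]

theorem Act.u_inv (g : G) (ω : Ω) : U.u g (U.u g⁻¹ ω) = ω := by
  rw [← U.mul, mul_inv_cancel, U.one]

theorem Act.cont₂ (g : G) : Continuous (U.u g) :=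
  U.cont.comp (continuous_const.prodMk continuous_id)

theorem Act.cont₁ (ω : Ω) : Continuous fun g => U.u g ω :=
  U.cont.comp (continuous_id.prodMk continuous_const)

/-- the homeomorphism -/
def Act.homeo (g : G) : Ω ≃ₜ Ω where
  toFun := U.u g
  invFun := U.u g⁻¹
  left_inv := U.inv_u g
  right_inv := U.u_inv g
  continuous_toFun := U.cont₂ g
  continuous_invFun := U.cont₂ g⁻¹

variable [IsTopologicalGroup G]

/-- the translate of a function -/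
def Act.tr (x : G) (f : C(Ω, ℝ)) : C(Ω, ℝ) := ⟨fun ω => f (U.u x⁻¹ ω), f.continuous.comp (U.cont₂ _)⟩

@[simp] theorem Act.tr_apply (x : G) (f : C(Ω, ℝ)) (ω : Ω) : U.tr x f ω = f (U.u x⁻¹ ω) := rfl

theorem Act.tr_nonneg (x : G) {f : C(Ω, ℝ)} (h : 0 ≤ f) : 0 ≤ U.tr x f := fun ω => h (U.u x⁻¹ ω)

theorem Act.continuous_tr (f : C(Ω, ℝ)) : Continuous fun x => U.tr x f := by
  have h1 : Continuous (Function.uncurry fun (x : G) (ω : Ω) => f (U.u x⁻¹ ω)) := by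
    exact f.continuous.comp (U.cont.comp ((continuous_fst.inv).prodMk continuous_snd))
  exact ContinuousMap.continuous_of_continuous_uncurry (fun x => U.tr x f) h1

end act

section orb

variable {G Ω K : Type} [Group G] [TopologicalSpace G] [IsTopologicalGroup G]
  [LocallyCompactSpace G] [SecondCountableTopology G] [T2Space G] [MeasurableSpace G]
  [BorelSpace G] [TopologicalSpace Ω] [CompactSpace Ω] [T2Space Ω]
  [NormedAddCommGroup K] [InnerProductSpace ℂ K] [CompleteSpace K]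
  (Φ : C(Ω, ℂ) →⋆ₐ[ℂ] (K →L[ℂ] K)) (U : Act G Ω) (μ : Measure G) [μ.IsHaarMeasure]

/-- `A` is integrable, together with all `S * A`. -/
structure Intg (A : C(Ω, ℝ)) : Prop where
  nn : 0 ≤ A
  ne : A ≠ 0
  int : ∀ S : C(Ω, ℝ), 0 ≤ S → ∃ c : ℝ, ∀ ζ, Integrable (fun x => qf Φ ζ (U.tr x (S * A))) μ ∧
    ∫ x, qf Φ ζ (U.tr x (S * A)) ∂μ = c * ‖ζ‖ ^ 2

variable {Φ U μ}

theorem qf_tr_cont (f : C(Ω, ℝ)) (ζ : K) : Continuous fun x => qf Φ ζ (U.tr x f) :=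
  (qL Φ ζ).continuous.comp (U.continuous_tr f)

/-- the integral over a compact set -/
noncomputable def ic (U : Act G Ω) (μ : Measure G) (f : C(Ω, ℝ)) (C : Set G) : C(Ω, ℝ) :=
  ∫ x in C, U.tr x f ∂μ

theorem integrableOn_tr (f : C(Ω, ℝ)) {C : Set G} (hC : IsCompact C) :
    IntegrableOn (fun x => U.tr x f) C μ :=
  (U.continuous_tr f).continuousOn.integrableOn_compact hC

theorem ic_apply (f : C(Ω, ℝ)) {C : Set G} (hC : IsCompact C) (ω : Ω) :
    ic U μ f C ω = ∫ x in C, f (U.u x⁻¹ ω) ∂μ := by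
  have h1 := (ContinuousMap.evalCLM ℝ ω : C(Ω, ℝ) →L[ℝ] ℝ).integral_comp_comm
    (integrableOn_tr (U := U) (μ := μ) f hC)
  exact h1.symm

theorem qf_ic (f : C(Ω, ℝ)) {C : Set G} (hC : IsCompact C) (ζ : K) :
    qf Φ ζ (ic U μ f C) = ∫ x in C, qf Φ ζ (U.tr x f) ∂μ :=
  ((qL Φ ζ).integral_comp_comm (integrableOn_tr (U := U) (μ := μ) f hC)).symm

/-- the tail is positive -/
theorem tail_nonneg (hΦ : Function.Injective Φ) {f : C(Ω, ℝ)} (hf : 0 ≤ f) {c : ℝ}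
    (hc : ∀ ζ, Integrable (fun x => qf Φ ζ (U.tr x f)) μ ∧
      ∫ x, qf Φ ζ (U.tr x f) ∂μ = c * ‖ζ‖ ^ 2) {C : Set G} (hC : IsCompact C) :
    0 ≤ c • (1 : C(Ω, ℝ)) - ic U μ f C := by
  refine nonneg_of_qf Φ hΦ fun ζ => ?_
  rw [qf_sub, qf_const, ← (hc ζ).2, qf_ic f hC, sub_nonneg]
  exact setIntegral_le_integral (hc ζ).1
    (Eventually.of_forall fun x => qf_nonneg Φ ζ (U.tr_nonneg x hf))

/-- **the good open set**: returns of the orbits to `W` happen in a compact set. -/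
structure Good (U : Act G Ω) (A : C(Ω, ℝ)) (W : Set Ω) (R : Set G) : Prop where
  opn : IsOpen W
  ne : W.Nonempty
  cpt : IsCompact R
  ret : ∀ ω ∈ W, ∀ z, U.u z ω ∈ W → z ∈ R
  pos : ∀ ω ∈ W, 0 < A ω

theorem Intg.exists_good (hΦ : Function.Injective Φ) {A : C(Ω, ℝ)} (h : Intg Φ U μ A) :
    ∃ W R, Good U A W R := by
  obtain ⟨c, hc⟩ := h.int 1 zero_le_one
  simp only [one_mul] at hc
  obtain ⟨ω₁, h1⟩ : ∃ ω, 0 < A ω := by
    by_contra hcon
    push Not at hcon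
    exact h.ne (ContinuousMap.ext fun ω => le_antisymm (hcon ω) (h.nn ω))
  obtain ⟨ε, hε⟩ : ∃ ε, ε = A ω₁ / 2 := ⟨_, rfl⟩
  have hε0 : 0 < ε := by rw [hε]; positivity
  -- a compact neighbourhood on which the translates are close
  have h2 : ∀ᶠ x in 𝓝 (1 : G), ‖U.tr x A - A‖ < ε / 2 := by
    have h3 : Tendsto (fun x => U.tr x A - A) (𝓝 1) (𝓝 (U.tr 1 A - A)) :=
      ((U.continuous_tr A).sub continuous_const).tendsto 1
    have h4 : U.tr 1 A - A = 0 := by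
      ext ω
      simp [U.one]
    rw [h4] at h3
    have h5 := h3.norm
    rw [norm_zero] at h5
    exact h5.eventually (gt_mem_nhds (by positivity))
  obtain ⟨M, ⟨hM1, hM⟩, hM2⟩ := (compact_basis_nhds (1 : G)).mem_iff.1 h2
  have hμ0 : 0 < μ.real M :=
    ENNReal.toReal_pos (MeasureTheory.Measure.measure_pos_of_mem_nhds μ hM1).ne' hM.measure_lt_top.ne
  obtain ⟨δ, hδ⟩ : ∃ δ, δ = ε / 2 * μ.real M := ⟨_, rfl⟩
  have hδ0 : 0 < δ := by rw [hδ]; positivity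
  -- the tail is small somewhere
  have key : ∃ C : Set G, IsCompact C ∧ ∃ ω, ε < A ω ∧ c - ic U μ A C ω < δ := by
    by_contra hcon
    push Not at hcon
    obtain ⟨g, hg⟩ : ∃ g : C(Ω, ℝ), ∀ ω, g ω = max (A ω - ε) 0 :=
      ⟨⟨fun ω => max (A ω - ε) 0, by fun_prop⟩, fun ω => rfl⟩
    have hg0 : 0 ≤ g := fun ω => by
      change (0 : ℝ) ≤ g ω
      rw [hg]; exact le_max_right _ _
    have hgn : g ≠ 0 := by
      intro h0
      have h3 : g ω₁ = 0 := DFunLike.congr_fun h0 ω₁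
      rw [hg] at h3
      have h4 := le_max_left (A ω₁ - ε) 0
      rw [h3] at h4
      linarith
    obtain ⟨ζ, hζ⟩ := exists_pos Φ hΦ hg0 hgn
    obtain ⟨ζ', hζ'⟩ : ∃ ζ', ζ' = Φ (cx (rt g)) ζ := ⟨_, rfl⟩
    have h3 : ∀ n, δ * qf Φ ζ g ≤ c * ‖ζ'‖ ^ 2 -
        ∫ x in compactCovering G n, qf Φ ζ' (U.tr x A) ∂μ := by
      intro n
      have hC := isCompact_compactCovering G n
      have e1 : qf Φ ζ' (c • (1 : C(Ω, ℝ)) - ic U μ A (compactCovering G n)) =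
          c * ‖ζ'‖ ^ 2 - ∫ x in compactCovering G n, qf Φ ζ' (U.tr x A) ∂μ := by
        rw [qf_sub, qf_const, qf_ic A hC]
      rw [← e1, hζ', qf_rt Φ ζ hg0, ← qf_smul]
      refine qf_mono Φ ζ fun ω => ?_
      change δ * g ω ≤ g ω * (c * 1 - ic U μ A (compactCovering G n) ω)
      rw [hg]
      rcases le_or_gt (A ω) ε with h5 | h5
      · rw [max_eq_right (by linarith)]; simp
      · rw [max_eq_left (by linarith)]
        have h6 := hcon _ hC ω h5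
        nlinarith
    have h4 : Tendsto (fun n => ∫ x in compactCovering G n, qf Φ ζ' (U.tr x A) ∂μ) atTop
        (𝓝 (∫ x in ⋃ n, compactCovering G n, qf Φ ζ' (U.tr x A) ∂μ)) :=
      tendsto_setIntegral_of_monotone (fun n => (isCompact_compactCovering G n).measurableSet)
        (fun a b hab => compactCovering_subset G hab) (hc ζ').1.integrableOn
    rw [iUnion_compactCovering, setIntegral_univ, (hc ζ').2] at h4
    have h5 := ge_of_tendsto' (h4.const_sub (c * ‖ζ'‖ ^ 2)) h3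
    rw [sub_self] at h5
    have h6 : 0 < δ * qf Φ ζ g := by positivity
    linarith
  obtain ⟨C, hC, ω₀, h3, h4⟩ := key
  refine ⟨{ω | ε < A ω ∧ c - ic U μ A C ω < δ}, M * C⁻¹, ?_, ⟨ω₀, h3, h4⟩, hM.mul hC.inv, ?_,
    fun ω hω => hε0.trans hω.1⟩
  · exact (isOpen_lt continuous_const A.continuous).inter
      (isOpen_lt (continuous_const.sub (ic U μ A C).continuous) continuous_const)
  rintro ω ⟨h5, h6⟩ z ⟨h7, h8⟩
  by_contra hz
  obtain ⟨D, hD⟩ : ∃ D, D = (fun x => z * x) ⁻¹' M := ⟨_, rfl⟩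
  have hDc : IsCompact D := by
    rw [hD]; exact (Homeomorph.mulLeft z).isCompact_preimage.2 hM
  have hDμ : μ.real D = μ.real M := by
    rw [hD, Measure.real, Measure.real, measure_preimage_mul]
  have hdis : Disjoint C D := by
    rw [Set.disjoint_left]
    intro x hx hx'
    rw [hD] at hx'
    exact hz ⟨z * x, hx', x⁻¹, Set.inv_mem_inv.2 hx, by simp⟩
  have hfc : Continuous fun x => A (U.u x⁻¹ ω) :=
    A.continuous.comp ((U.cont₁ ω).comp continuous_inv)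
  have h9 : (0 : ℝ) ≤ (c • (1 : C(Ω, ℝ)) - ic U μ A (C ∪ D)) ω :=
    tail_nonneg hΦ h.nn hc (hC.union hDc) ω
  have h10 : (c • (1 : C(Ω, ℝ)) - ic U μ A (C ∪ D)) ω = c - ic U μ A (C ∪ D) ω := by
    simp
  rw [h10, ic_apply A (hC.union hDc), setIntegral_union hdis hDc.measurableSet
    (hfc.continuousOn.integrableOn_compact hC) (hfc.continuousOn.integrableOn_compact hDc),
    ← ic_apply A hC] at h9
  have h11 : δ ≤ ∫ x in D, A (U.u x⁻¹ ω) ∂μ := by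
    have e1 : δ = ∫ x in D, ε / 2 ∂μ := by
      rw [setIntegral_const, hδ, hDμ, smul_eq_mul, mul_comm]
    rw [e1]
    refine setIntegral_mono_on (integrableOn_const hDc.measure_lt_top.ne)
      (hfc.continuousOn.integrableOn_compact hDc) hDc.measurableSet fun x hx => ?_
    rw [hD] at hx
    have h12 : ‖U.tr (z * x) A - A‖ < ε / 2 := hM2 hx
    have h13 := (U.tr (z * x) A - A).norm_coe_le_norm (U.u z ω)
    have h14 : (U.tr (z * x) A - A) (U.u z ω) = A (U.u x⁻¹ ω) - A (U.u z ω) := by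
      rw [ContinuousMap.sub_apply, Act.tr_apply, ← U.mul, mul_inv_rev, inv_mul_cancel_right]
    rw [h14, Real.norm_eq_abs] at h13
    have h15 := (abs_le.1 h13).1
    linarith
  linarith

/-- bump functions -/
theorem exists_bump {O : Set Ω} (hO : IsOpen O) {ω : Ω} (hω : ω ∈ O) :
    ∃ f : C(Ω, ℝ), 0 ≤ f ∧ f ω = 1 ∧ ∀ x, x ∉ O → f x = 0 := by
  obtain ⟨f, h1, h2, h3⟩ := exists_continuous_zero_one_of_isClosed (s := Oᶜ) (t := {ω})
    hO.isClosed_compl isClosed_singleton (by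
      rw [Set.disjoint_singleton_right]
      exact fun h => h hω)
  exact ⟨f, fun x => (h3 x).1, h2 rfl, fun x hx => h1 hx⟩

/-- the integral formula at every point of `W` -/
theorem Good.loc (hΦ : Function.Injective Φ) {A : C(Ω, ℝ)} {W : Set Ω} {R : Set G}
    (hW : Good U A W R) (f : C(Ω, ℝ)) (hfW : ∀ x, x ∉ W → f x = 0) {g : C(Ω, ℝ)} (hg : 0 ≤ g)
    (hgW : ∀ x, x ∉ W → g x = 0) {c : ℝ}
    (hc : ∀ ζ, Integrable (fun x => qf Φ ζ (U.tr x (f * A))) μ ∧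
      ∫ x, qf Φ ζ (U.tr x (f * A)) ∂μ = c * ‖ζ‖ ^ 2) :
    g * ic U μ (f * A) R⁻¹ = c • g := by
  rw [← sub_eq_zero]
  refine eq_zero_of_qf Φ hΦ fun ζ => ?_
  rw [qf_sub, qf_smul, ← qf_rt Φ ζ hg, qf_ic _ hW.cpt.inv, ← norm_rt_sq Φ ζ hg,
    setIntegral_eq_integral_of_forall_compl_eq_zero, (hc _).2, sub_self]
  intro x hx
  rw [qf_rt Φ ζ hg]
  have h1 : g * U.tr x (f * A) = 0 := by
    ext ω
    simp only [ContinuousMap.mul_apply, Act.tr_apply, ContinuousMap.zero_apply]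
    by_cases h2 : ω ∈ W
    · by_cases h3 : U.u x⁻¹ ω ∈ W
      · exact absurd (Set.mem_inv.2 (hW.ret ω h2 _ h3)) hx
      · rw [hfW _ h3]; simp
    · rw [hgW _ h2]; simp
  rw [h1, qf_zero]

/-- a nonzero integrable element has a nonzero constant -/
theorem const_ne (hΦ : Function.Injective Φ) {f : C(Ω, ℝ)} (hf : 0 ≤ f) (hf0 : f ≠ 0) {c : ℝ}
    (hc : ∀ ζ, Integrable (fun x => qf Φ ζ (U.tr x f)) μ ∧
      ∫ x, qf Φ ζ (U.tr x f) ∂μ = c * ‖ζ‖ ^ 2) : c ≠ 0 := by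
  rintro rfl
  apply hf0
  refine eq_zero_of_qf Φ hΦ fun ζ => ?_
  have h1 := (hc ζ).2
  rw [zero_mul, integral_eq_zero_iff_of_nonneg (fun x => qf_nonneg Φ ζ (U.tr_nonneg x hf))
    (hc ζ).1] at h1
  have h2 := (Continuous.ae_eq_iff_eq μ (qf_tr_cont (U := U) f ζ) continuous_const).1 h1
  have h3 : qf Φ ζ (U.tr 1 f) = 0 := congrFun h2 1
  have h4 : U.tr 1 f = f := by
    ext ω
    simp [U.one]
  rwa [h4] at h3

/-- **one orbit** -/
theorem Good.orb (hΦ : Function.Injective Φ) {A : C(Ω, ℝ)} (h : Intg Φ U μ A) {W : Set Ω}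
    {R : Set G} (hW : Good U A W R) {ω ω' : Ω} (hω : ω ∈ W) (hω' : ω' ∈ W) :
    ∃ z ∈ R, U.u z ω = ω' := by
  by_contra hcon
  push Not at hcon
  have hcl : IsClosed ((fun z => U.u z ω) '' R) := (hW.cpt.image (U.cont₁ ω)).isClosed
  have hω1 : ω' ∉ (fun z => U.u z ω) '' R := by
    rintro ⟨z, hz, e⟩
    exact hcon z hz e
  obtain ⟨f, hf0, hf1, hf2⟩ := exists_bump (hW.opn.sdiff hcl) ⟨hω', hω1⟩
  obtain ⟨g, hg0, hg1, hg2⟩ := exists_bump hW.opn hω
  obtain ⟨c, hc⟩ := h.int f hf0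
  have hfA : f * A ≠ 0 := by
    intro h0
    have h1 : f ω' * A ω' = 0 := DFunLike.congr_fun h0 ω'
    rw [hf1, one_mul] at h1
    exact (hW.pos ω' hω').ne' h1
  have hfA0 : 0 ≤ f * A := fun x => mul_nonneg (hf0 x) (h.nn x)
  have hc0 := const_ne hΦ hfA0 hfA hc
  have h1 := hW.loc hΦ f (fun x hx => hf2 x fun h => hx h.1) hg0 hg2 hc
  have h2 : g ω * ic U μ (f * A) R⁻¹ ω = c * g ω := DFunLike.congr_fun h1 ω
  rw [hg1, one_mul, mul_one, ic_apply _ hW.cpt.inv] at h2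
  apply hc0
  rw [← h2]
  refine setIntegral_eq_zero_of_forall_eq_zero fun x hx => ?_
  rw [ContinuousMap.mul_apply, hf2, zero_mul]
  rintro ⟨-, h3⟩
  exact h3 ⟨x⁻¹, hx, rfl⟩

/-- the orbits meet every open set -/
theorem Intg.meet (hΦ : Function.Injective Φ) {A : C(Ω, ℝ)} (h : Intg Φ U μ A) {f g : C(Ω, ℝ)}
    (hf : 0 ≤ f) (hfA : f * A ≠ 0) (hg : 0 ≤ g) (hg0 : g ≠ 0) :
    ∃ x, g * U.tr x (f * A) ≠ 0 := by
  by_contra hcon
  push Not at hcon
  obtain ⟨c, hc⟩ := h.int f hf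
  have hfA0 : 0 ≤ f * A := fun x => mul_nonneg (hf x) (h.nn x)
  apply const_ne hΦ hfA0 hfA hc
  obtain ⟨ζ, hζ⟩ := exists_pos Φ hΦ hg hg0
  have h1 := (hc (Φ (cx (rt g)) ζ)).2
  simp only [qf_rt Φ ζ hg, hcon, qf_zero, integral_zero, norm_rt_sq Φ ζ hg] at h1
  exact (mul_eq_zero.1 h1.symm).resolve_right hζ.ne'

/-- the points whose orbit meets `W` -/
def oset (U : Act G Ω) (W : Set Ω) : Set Ω := {ω | ∃ z, U.u z ω ∈ W}

theorem oset_open {W : Set Ω} (hW : IsOpen W) : IsOpen (oset U W) := by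
  have e : oset U W = ⋃ z, U.u z ⁻¹' W := by
    ext ω
    simp [oset]
  rw [e]
  exact isOpen_iUnion fun z => hW.preimage (U.cont₂ z)

theorem Good.dense (hΦ : Function.Injective Φ) {A : C(Ω, ℝ)} (h : Intg Φ U μ A) {W : Set Ω}
    {R : Set G} (hW : Good U A W R) : Dense (oset U W) := by
  rw [dense_iff_inter_open]
  rintro O hO ⟨ω, hω⟩
  obtain ⟨ω₀, hω₀⟩ := hW.ne
  obtain ⟨g, hg0, hg1, hg2⟩ := exists_bump hO hω
  obtain ⟨f, hf0, hf1, hf2⟩ := exists_bump hW.opn hω₀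
  have hfA : f * A ≠ 0 := by
    intro h0
    have h1 : f ω₀ * A ω₀ = 0 := DFunLike.congr_fun h0 ω₀
    rw [hf1, one_mul] at h1
    exact (hW.pos ω₀ hω₀).ne' h1
  have hgn : g ≠ 0 := by
    intro h0
    have h1 : g ω = 0 := DFunLike.congr_fun h0 ω
    rw [hg1] at h1
    exact one_ne_zero h1
  obtain ⟨x, hx⟩ := h.meet hΦ hf0 hfA hg0 hgn
  obtain ⟨ω₁, h1⟩ : ∃ ω₁, (g * U.tr x (f * A)) ω₁ ≠ 0 := by
    by_contra hcon
    push Not at hcon
    exact hx (ContinuousMap.ext hcon)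
  simp only [ContinuousMap.mul_apply, Act.tr_apply] at h1
  refine ⟨ω₁, ?_, x⁻¹, ?_⟩
  · by_contra h2
    exact h1 (by rw [hg2 _ h2, zero_mul])
  · by_contra h2
    exact h1 (by rw [hf2 _ h2, zero_mul, mul_zero])

theorem Good.orb' (hΦ : Function.Injective Φ) {A : C(Ω, ℝ)} (h : Intg Φ U μ A) {W : Set Ω}
    {R : Set G} (hW : Good U A W R) {ω ω' : Ω} (hω : ω ∈ oset U W) (hω' : ω' ∈ oset U W) :
    ∃ z, U.u z ω = ω' := by
  obtain ⟨x, hx⟩ := hω
  obtain ⟨y, hy⟩ := hω'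
  obtain ⟨z, -, hz⟩ := hW.orb hΦ h hx hy
  exact ⟨y⁻¹ * (z * x), by rw [U.mul, U.mul, hz, U.inv_u]⟩

end orb

section two

variable {G H Ω K : Type} [Group G] [TopologicalSpace G] [IsTopologicalGroup G]
  [LocallyCompactSpace G] [SecondCountableTopology G] [T2Space G] [MeasurableSpace G]
  [BorelSpace G] [Group H] [TopologicalSpace H] [IsTopologicalGroup H]
  [LocallyCompactSpace H] [SecondCountableTopology H] [T2Space H] [MeasurableSpace H]
  [BorelSpace H] [TopologicalSpace Ω] [CompactSpace Ω] [T2Space Ω]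
  [NormedAddCommGroup K] [InnerProductSpace ℂ K] [CompleteSpace K]
  {Φ : C(Ω, ℂ) →⋆ₐ[ℂ] (K →L[ℂ] K)} {U : Act G Ω} {U' : Act H Ω} {μ : Measure G}
  [μ.IsHaarMeasure] {ν : Measure H} [ν.IsHaarMeasure]

/-- the second group is transitive on the orbit of the first -/
theorem trans_of (hΦ : Function.Injective Φ)
    (hc : ∀ g h ω, U.u g (U'.u h ω) = U'.u h (U.u g ω)) {A' : C(Ω, ℝ)} (h' : Intg Φ U' ν A')
    {W' : Set Ω} {R' : Set H} (hW' : Good U' A' W' R') {ω₀ : Ω} (h0 : ω₀ ∈ oset U' W') (t : G) :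
    ∃ h, U.u t ω₀ = U'.u h ω₀ := by
  have hO := oset_open (U := U') hW'.opn
  have h1 : IsOpen (U.u t⁻¹ ⁻¹' oset U' W') := hO.preimage (U.cont₂ _)
  obtain ⟨ω₂, h2, h3⟩ := (hW'.dense hΦ h').inter_open_nonempty _ h1 ⟨U.u t ω₀, by
    rw [Set.mem_preimage, U.inv_u]; exact h0⟩
  obtain ⟨a, ha⟩ := hW'.orb' hΦ h' h0 h2
  obtain ⟨b, hb⟩ := hW'.orb' hΦ h' h0 h3
  refine ⟨a⁻¹ * b, ?_⟩
  have h4 : U'.u a (U.u t ω₀) = U'.u b ω₀ := by
    rw [← hc, ha, hb, U.u_inv]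
  rw [U'.mul, ← h4, U'.inv_u]

/-- **the structure of the spectrum** -/
theorem exists_pt (hΦ : Function.Injective Φ)
    (hc : ∀ g h ω, U.u g (U'.u h ω) = U'.u h (U.u g ω)) {A A' : C(Ω, ℝ)} (h : Intg Φ U μ A)
    (h' : Intg Φ U' ν A')
    (big : ∀ N : Subgroup G, N.Normal → N ≠ ⊥ → ¬ IsCompact (N : Set G)) :
    ∃ (ω₀ : Ω) (hω : IsOpenEmbedding fun x => U.u x ω₀),
      (∀ h, ∃ t, U'.u h ω₀ = U.u t ω₀) ∧
      ∀ ζ : K, (∀ f : C(Ω, ℂ), (∀ ω, ω ∉ Set.range (fun x => U.u x ω₀) → f ω = 0) → Φ f ζ = 0) →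
        ζ = 0 := by
  obtain ⟨W, R, hW⟩ := h.exists_good hΦ
  obtain ⟨W', R', hW'⟩ := h'.exists_good hΦ
  obtain ⟨ω₀, h1, h2⟩ := (hW'.dense hΦ h').inter_open_nonempty W hW.opn hW.ne
  have h1' : ω₀ ∈ oset U W := ⟨1, by rw [U.one]; exact h1⟩
  have tr1 := fun t => trans_of (U := U) hΦ hc h' hW' h2 t
  have tr2 : ∀ h, ∃ t, U'.u h ω₀ = U.u t ω₀ := fun t =>
    trans_of (U := U') (U' := U) hΦ (fun g h ω => (hc h g ω).symm) h hW h1' t
  -- the stabiliser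
  obtain ⟨Z, hZ⟩ : ∃ Z : Subgroup G, ∀ z, z ∈ Z ↔ U.u z ω₀ = ω₀ :=
    ⟨{ carrier := {z | U.u z ω₀ = ω₀}
       mul_mem' := fun {a b} ha hb => by
        change U.u (a * b) ω₀ = ω₀
        rw [U.mul, hb, ha]
       one_mem' := U.one ω₀
       inv_mem' := fun {a} ha => by
        change U.u a⁻¹ ω₀ = ω₀
        conv_lhs => rw [← show U.u a ω₀ = ω₀ from ha]
        rw [U.inv_u] }, fun z => Iff.rfl⟩
  have hZc : IsCompact (Z : Set G) := by
    refine hW.cpt.of_isClosed_subset ?_ fun z hz => hW.ret ω₀ h1 z ?_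
    · have e : (Z : Set G) = (fun z => U.u z ω₀) ⁻¹' {ω₀} := by
        ext z
        exact hZ z
      rw [e]
      exact isClosed_singleton.preimage (U.cont₁ ω₀)
    · rw [(hZ z).1 hz]; exact h1
  have hZn : Z.Normal := ⟨fun z hz t => by
    rw [hZ] at hz ⊢
    obtain ⟨h, hh⟩ := tr1 t⁻¹
    rw [mul_assoc, U.mul, U.mul, hh, hc, hz, ← hh, U.u_inv]⟩
  have hZ1 : Z = ⊥ := by
    by_contra h3
    exact big Z hZn h3 hZc
  have hinj : Function.Injective fun x => U.u x ω₀ := by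
    intro x y hxy
    have h3 : y⁻¹ * x ∈ Z := by
      rw [hZ, U.mul]
      change U.u x ω₀ = U.u y ω₀ at hxy
      rw [hxy, U.inv_u]
    rw [hZ1, Subgroup.mem_bot, inv_mul_eq_one] at h3
    exact h3.symm
  -- the orbit map is open at `1`
  have hnh : ∀ V : Set G, IsOpen V → (1 : G) ∈ V → (fun x => U.u x ω₀) '' V ∈ 𝓝 ω₀ := by
    intro V hV hV1
    have hcp : IsCompact ((fun x => U.u x ω₀) '' (R \ V)) :=
      (hW.cpt.diff hV).image (U.cont₁ ω₀)
    have h3 : W \ (fun x => U.u x ω₀) '' (R \ V) ∈ 𝓝 ω₀ := by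
      refine (hW.opn.sdiff hcp.isClosed).mem_nhds ⟨h1, ?_⟩
      rintro ⟨y, hy, e⟩
      have h4 : y = 1 := hinj (by
        change U.u y ω₀ = U.u 1 ω₀
        rw [U.one]; exact e)
      rw [h4] at hy
      exact hy.2 hV1
    refine Filter.mem_of_superset h3 ?_
    rintro ω ⟨h4, h5⟩
    obtain ⟨z, hz, e⟩ := hW.orb hΦ h h1 h4
    refine ⟨z, ?_, e⟩
    by_contra h6
    exact h5 ⟨z, ⟨hz, h6⟩, e⟩
  have hopen : IsOpenMap fun x => U.u x ω₀ := by
    intro V hV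
    rw [isOpen_iff_mem_nhds]
    rintro _ ⟨x, hx, rfl⟩
    have h3 := hnh ((fun y => x * y) ⁻¹' V) (hV.preimage (by fun_prop)) (by simpa using hx)
    have h4 : U.u x⁻¹ ⁻¹' ((fun x => U.u x ω₀) '' ((fun y => x * y) ⁻¹' V)) ∈
        𝓝 (U.u x ω₀) := by
      refine (U.cont₂ x⁻¹).continuousAt.preimage_mem_nhds ?_
      rw [U.inv_u]
      exact h3
    refine Filter.mem_of_superset h4 ?_
    rintro ω ⟨y, hy, e⟩
    refine ⟨x * y, hy, ?_⟩
    change U.u (x * y) ω₀ = ω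
    change U.u y ω₀ = U.u x⁻¹ ω at e
    rw [U.mul, e, U.u_inv]
  have hemb : IsOpenEmbedding fun x => U.u x ω₀ :=
    IsOpenEmbedding.of_continuous_injective_isOpenMap (U.cont₁ ω₀) hinj hopen
  refine ⟨ω₀, hemb, tr2, fun ζ hζ => ?_⟩
  obtain ⟨f, hf0, hf1, hf2⟩ := exists_bump hW.opn h1
  obtain ⟨c, hcc⟩ := h.int f hf0
  have hfA : f * A ≠ 0 := by
    intro h3
    have h4 : f ω₀ * A ω₀ = 0 := DFunLike.congr_fun h3 ω₀
    rw [hf1, one_mul] at h4
    exact (hW.pos ω₀ h1).ne' h4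
  have hfA0 : 0 ≤ f * A := fun x => mul_nonneg (hf0 x) (h.nn x)
  have hc0 := const_ne hΦ hfA0 hfA hcc
  have h3 : ∀ x, qf Φ ζ (U.tr x (f * A)) = 0 := by
    intro x
    rw [qf, hζ, inner_zero_right, Complex.zero_re]
    intro ω hω
    rw [cx_apply, Act.tr_apply, ContinuousMap.mul_apply, hf2, zero_mul, Complex.ofReal_zero]
    intro h4
    obtain ⟨z, -, e⟩ := hW.orb hΦ h h1 h4
    exact hω ⟨x * z, by
      change U.u (x * z) ω₀ = ω
      rw [U.mul, e, U.u_inv]⟩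
  have h4 := (hcc ζ).2
  simp only [h3, integral_zero] at h4
  have h5 := (mul_eq_zero.1 h4.symm).resolve_left hc0
  exact norm_eq_zero.1 (pow_eq_zero_iff (two_ne_zero)|>.1 h5)

end two

end Vale.Agent.P092.VM
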