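import Vale.Agent.P092.VM.Gel
import Vale.Agent.P092.QT.Q.Alg
import Vale.Agent.P092.VR.QDefs

/-!
P092 (helper971), project MIX: the calculus of `C₀(G)` in the algebra of the two sided fields.
-/

set_option linter.all false

open MeasureTheory Filter Topology ContinuousLinearMap
open scoped InnerProductSpace ENNReal ZeroAtInfty BoundedContinuousFunction

namespace Vale.Agent.P092.VM

open Vale.Agent.P092.H160 (Cmm)
open Vale.Agent.P092.QT.H156
open Vale.Agent.P092.QT.H156.Sm (Frm Fd Smo ip ACont L2)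
open Vale.Agent.P092.QT.H715.Q (Dbl fl F1 TwS)
open Vale.Agent.P092.QT.H650
open Vale.Agent.P092.VR (FacV)

section alg

variable {Γ X K G H : Type} [Group Γ] [Group X]
  [NormedAddCommGroup K] [InnerProductSpace ℂ K] [CompleteSpace K]
  [Group G] [TopologicalSpace G] [IsTopologicalGroup G]
  [Group H] [TopologicalSpace H] [IsTopologicalGroup H]
  {V : Γ →* (K →L[ℂ] K)} {ρ : X →* (K →L[ℂ] K)} {ω : K} {ι : X →* G} {κ : Γ →* H}

/-- a bounded field in the bicommutant of the values of `𝒯` -/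
structure Okf (ι : X →* G) (κ : Γ →* H) (ρ : X →* (K →L[ℂ] K)) (V : Γ →* (K →L[ℂ] K))
    (𝒯 : Set (G → (K →L[ℂ] K))) (b : G → (K →L[ℂ] K)) : Prop where
  fd : Fd ι ρ b
  ac : ACont κ V b
  bi : ∀ T : K →L[ℂ] K, (∀ a ∈ 𝒯, ∀ y, Commute T (a y)) → ∀ x, Commute T (b x)

theorem al_const (hF : Frm ρ V ω) (hd : DenseRange κ) (c : ℂ) (h : H) (x : G) :
    al κ V h (fun _ : G => (algebraMap ℂ (K →L[ℂ] K) c)) x = algebraMap ℂ (K →L[ℂ] K) c := by
  have e : ∀ v, cj V v (fun _ : G => (algebraMap ℂ (K →L[ℂ] K) c)) x =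
      algebraMap ℂ (K →L[ℂ] K) c := by
    intro v
    rw [cj, ← Algebra.commutes, mul_assoc, hF.mul_inv, mul_one]
  refine al_unique hF hd ?_ ?_
  · intro ε hε
    refine ⟨Set.univ, univ_mem, fun v _ x => ?_⟩
    rw [← Algebra.commutes, mul_assoc, hF.mul_inv, mul_one, sub_self, norm_zero]
    exact hε.le
  · simp only [e]
    exact tendsto_const_nhds

variable {𝒯 : Set (G → (K →L[ℂ] K))} {a b : G → (K →L[ℂ] K)}

theorem Okf.comm (h𝒯 : ∀ a ∈ 𝒯, ∀ b ∈ 𝒯, ∀ x y, a x * b y = b y * a x)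
    (ha : Okf ι κ ρ V 𝒯 a) (hb : Okf ι κ ρ V 𝒯 b) (x y : G) : Commute (a x) (b y) :=
  hb.bi _ (fun c hc z => (ha.bi (c z) (fun d hd w => h𝒯 c hc d hd z w) x).symm) y

theorem Okf.al_mem (hF : Frm ρ V ω) (hd : DenseRange κ)
    (hcj : ∀ a ∈ 𝒯, ∀ g, (fun x => V g * a x * V g⁻¹) ∈ 𝒯) (hb : Okf ι κ ρ V 𝒯 b) (h : H) :
    Okf ι κ ρ V 𝒯 (al κ V h b) where
  fd := fd_al hF hd hb.fd hb.ac h
  ac := acont_al hF hd hb.ac h
  bi T hT x := by
    have h1 : ∀ v, Commute T (cj V v b x) := by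
      intro v
      have h2 : Commute (V v⁻¹ * T * V v) (b x) := by
        refine hb.bi _ (fun a ha y => ?_) x
        have h3 := hT _ (hcj a ha v) y
        change V v⁻¹ * T * V v * a y = a y * (V v⁻¹ * T * V v)
        have h4 : T * (V v * a y * V v⁻¹) = V v * a y * V v⁻¹ * T := h3
        calc V v⁻¹ * T * V v * a y = V v⁻¹ * (T * (V v * a y * V v⁻¹)) * V v := by
              have h5 := hF.inv_mul v
              simp only [mul_assoc]
              rw [h5, mul_one]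
          _ = V v⁻¹ * (V v * a y * V v⁻¹ * T) * V v := by rw [h4]
          _ = (V v⁻¹ * V v) * a y * (V v⁻¹ * T * V v) := by simp only [mul_assoc]
          _ = a y * (V v⁻¹ * T * V v) := by rw [hF.inv_mul, one_mul]
      change T * (V v * b x * V v⁻¹) = V v * b x * V v⁻¹ * T
      have h4 : V v⁻¹ * T * V v * b x = b x * (V v⁻¹ * T * V v) := h2
      calc T * (V v * b x * V v⁻¹) = (V v * V v⁻¹) * T * (V v * b x * V v⁻¹) := by
            rw [hF.mul_inv, one_mul]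
        _ = V v * (V v⁻¹ * T * V v * b x) * V v⁻¹ := by simp only [mul_assoc]
        _ = V v * (b x * (V v⁻¹ * T * V v)) * V v⁻¹ := by rw [h4]
        _ = V v * b x * V v⁻¹ * T * (V v * V v⁻¹) := by simp only [mul_assoc]
        _ = _ := by rw [hF.mul_inv, mul_one]
    haveI := comap_neBot hd h
    have h2 := tendsto_al hF hd hb.ac h x
    exact tendsto_nhds_unique (h2.const_mul T) (by
      have h3 := h2.mul_const T
      exact h3.congr fun v => (h1 v).eq.symm)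

theorem Okf.rt (hb : Okf ι κ ρ V 𝒯 b) (y : G) : Okf ι κ ρ V 𝒯 (fun x => b (x * y)) where
  fd := hb.fd.rt y
  ac := ACont.rt hb.ac y
  bi T hT x := hb.bi T hT (x * y)

theorem Okf.of_mem (hf : ∀ a ∈ 𝒯, Fd ι ρ a ∧ ACont κ V a) (ha : a ∈ 𝒯) : Okf ι κ ρ V 𝒯 a where
  fd := (hf a ha).1
  ac := (hf a ha).2
  bi T hT x := hT a ha x

theorem Okf.add (ha : Okf ι κ ρ V 𝒯 a) (hb : Okf ι κ ρ V 𝒯 b) :
    Okf ι κ ρ V 𝒯 (fun x => a x + b x) where
  fd := ha.fd.add hb.fd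
  ac := ha.ac.add hb.ac
  bi T hT x := (ha.bi T hT x).add_right (hb.bi T hT x)

theorem Okf.mul (hF : Frm ρ V ω) (ha : Okf ι κ ρ V 𝒯 a) (hb : Okf ι κ ρ V 𝒯 b) :
    Okf ι κ ρ V 𝒯 (fun x => a x * b x) where
  fd := ha.fd.mul hb.fd
  ac := ACont.mul hF ha.ac hb.ac ha.fd.bdd hb.fd.bdd
  bi T hT x := (ha.bi T hT x).mul_right (hb.bi T hT x)

theorem Okf.adj (hF : Frm ρ V ω) (hadj : ∀ a ∈ 𝒯, (fun x => adjoint (a x)) ∈ 𝒯)
    (ha : Okf ι κ ρ V 𝒯 a) : Okf ι κ ρ V 𝒯 (fun x => adjoint (a x)) where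
  fd := ha.fd.adj hF.reg
  ac := ACont.adj hF ha.ac
  bi T hT x := by
    have h1 : Commute (star T) (a x) := by
      refine ha.bi _ (fun b hb y => ?_) x
      have h2 : Commute T (adjoint (b y)) := hT _ (hadj b hb) y
      have h3 := h2.star_star
      rwa [star_eq_adjoint (adjoint (b y)), adjoint_adjoint] at h3
    have h4 := h1.star_star
    rwa [star_star] at h4

theorem Okf.const (hF : Frm ρ V ω) (c : ℂ) :
    Okf ι κ ρ V 𝒯 (fun _ => algebraMap ℂ (K →L[ℂ] K) c) where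
  fd := Fd.const hF.reg (fun g => (Algebra.commutes c (ρ g)))
  ac := fun ε hε => by
    refine ⟨Set.univ, univ_mem, fun v _ x => ?_⟩
    rw [← Algebra.commutes, mul_assoc, hF.mul_inv, mul_one, sub_self, norm_zero]
    exact hε.le
  bi T hT x := (Algebra.commutes c T).symm

/-- the algebra of fields -/
def fieldAlg (ι : X →* G) (κ : Γ →* H) (hF : Frm ρ V ω) (𝒯 : Set (G → (K →L[ℂ] K)))
    (hadj : ∀ a ∈ 𝒯, (fun x => adjoint (a x)) ∈ 𝒯) :
    StarSubalgebra ℂ (G →ᵇ (K →L[ℂ] K)) where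
  carrier := {b | Okf ι κ ρ V 𝒯 b}
  mul_mem' ha hb := Okf.mul hF ha hb
  add_mem' ha hb := Okf.add ha hb
  algebraMap_mem' c := Okf.const hF c
  star_mem' ha := Okf.adj hF hadj ha

theorem isClosed_fieldAlg (hF : Frm ρ V ω)
    (hadj : ∀ a ∈ 𝒯, (fun x => adjoint (a x)) ∈ 𝒯) :
    IsClosed (fieldAlg ι κ hF 𝒯 hadj : Set (G →ᵇ (K →L[ℂ] K))) := by
  rw [← isSeqClosed_iff_isClosed]
  intro b b₀ hb hlim
  have hsup : ∀ ε > 0, ∃ n, ∀ x, ‖b n x - b₀ x‖ ≤ ε := by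
    intro ε hε
    rw [tendsto_iff_norm_sub_tendsto_zero] at hlim
    obtain ⟨n, hn⟩ := (hlim.eventually (gt_mem_nhds hε)).exists
    exact ⟨n, fun x => ((b n - b₀).norm_coe_le_norm x).trans hn.le⟩
  have hpt : ∀ x, Tendsto (fun n => b n x) atTop (𝓝 (b₀ x)) := fun x =>
    ((BoundedContinuousFunction.evalCLM ℂ x).continuous.tendsto b₀).comp hlim
  change Okf ι κ ρ V 𝒯 b₀
  refine ⟨⟨fun γ x => ?_, ⟨‖b₀‖, b₀.norm_coe_le_norm⟩, fun ε hε => ?_⟩, fun ε hε => ?_,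
    fun T hT x => ?_⟩
  · refine tendsto_nhds_unique (hpt (ι γ * x)) ?_
    have h1 := ((hpt x).const_mul (ρ γ)).mul_const (ρ γ⁻¹)
    exact h1.congr fun n => ((hb n).fd.equiv γ x).symm
  · obtain ⟨n, hn⟩ := hsup (ε / 3) (by positivity)
    obtain ⟨U, hU, h1⟩ := (hb n).fd.rcont (ε / 3) (by positivity)
    refine ⟨U, hU, fun y hy x => ?_⟩
    have e : b₀ (x * y) - b₀ x = -(b n (x * y) - b₀ (x * y)) + (b n (x * y) - b n x) +
        (b n x - b₀ x) := by abel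
    rw [e]
    refine (norm_add₃_le).trans ?_
    rw [norm_neg]
    linarith [hn (x * y), hn x, h1 y hy x]
  · obtain ⟨n, hn⟩ := hsup (ε / 3) (by positivity)
    obtain ⟨U, hU, h1⟩ := (hb n).ac (ε / 3) (by positivity)
    refine ⟨U, hU, fun v hv x => ?_⟩
    have e : V v * b₀ x * V v⁻¹ - b₀ x = -(V v * (b n x - b₀ x) * V v⁻¹) +
        (V v * b n x * V v⁻¹ - b n x) + (b n x - b₀ x) := by
      rw [mul_sub, sub_mul]; abel
    rw [e]
    refine (norm_add₃_le).trans ?_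
    rw [norm_neg]
    have h2 : ‖V v * (b n x - b₀ x) * V v⁻¹‖ ≤ ‖b n x - b₀ x‖ :=
      norm_cj hF v (fun x => b n x - b₀ x) x
    linarith [hn x, h1 v hv x]
  · refine tendsto_nhds_unique ((hpt x).const_mul T) ?_
    exact ((hpt x).mul_const T).congr fun n => ((hb n).bi T hT x).eq.symm

end alg

section main

variable {Γ X K G H : Type} [Group Γ] [Group X]
  [NormedAddCommGroup K] [InnerProductSpace ℂ K] [CompleteSpace K]
  [Group G] [TopologicalSpace G] [IsTopologicalGroup G]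
  [Group H] [TopologicalSpace H] [IsTopologicalGroup H]
  {V : Γ →* (K →L[ℂ] K)} {ρ : X →* (K →L[ℂ] K)} {ω : K} {ι : X →* G} {κ : Γ →* H}
  {𝒯 : Set (G → (K →L[ℂ] K))}

/-- right translations -/
noncomputable def rtH (hF : Frm ρ V ω) (hadj : ∀ a ∈ 𝒯, (fun x => adjoint (a x)) ∈ 𝒯) (y : G) :
    fieldAlg ι κ hF 𝒯 hadj →⋆ₐ[ℂ] fieldAlg ι κ hF 𝒯 hadj where
  toFun b := ⟨b.1.compContinuous ⟨fun x => x * y, by fun_prop⟩, b.2.rt y⟩
  map_one' := rfl
  map_mul' a b := rfl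
  map_zero' := rfl
  map_add' a b := rfl
  commutes' c := rfl
  map_star' a := rfl

theorem rtH_apply (hF : Frm ρ V ω) (hadj : ∀ a ∈ 𝒯, (fun x => adjoint (a x)) ∈ 𝒯) (y : G)
    (b : fieldAlg ι κ hF 𝒯 hadj) (x : G) : (rtH hF hadj y b).1 x = b.1 (x * y) := rfl

/-- the second action -/
noncomputable def alH (hF : Frm ρ V ω) (hd : DenseRange κ)
    (hadj : ∀ a ∈ 𝒯, (fun x => adjoint (a x)) ∈ 𝒯)
    (hcj : ∀ a ∈ 𝒯, ∀ g, (fun x => V g * a x * V g⁻¹) ∈ 𝒯) (h : H) :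
    fieldAlg ι κ hF 𝒯 hadj →⋆ₐ[ℂ] fieldAlg ι κ hF 𝒯 hadj where
  toFun b := ⟨BoundedContinuousFunction.ofNormedAddCommGroup (al κ V h b.1)
    (b.2.al_mem hF hd hcj h).fd.continuous ‖b.1‖
    (fun x => (norm_al_le hF hd b.2.ac h x).trans (b.1.norm_coe_le_norm x)),
    b.2.al_mem hF hd hcj h⟩
  map_one' := by
    ext1; ext1 x
    have h1 := al_const (G := G) hF hd 1 h x
    rw [map_one] at h1
    exact h1
  map_mul' a b := by
    ext1; ext1 x
    exact al_mul hF hd a.2.ac b.2.ac a.2.fd.bdd b.2.fd.bdd h x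
  map_zero' := by
    ext1; ext1 x
    exact al_zero hF hd h x
  map_add' a b := by
    ext1; ext1 x
    exact al_add hF hd a.2.ac b.2.ac h x
  commutes' c := by
    ext1; ext1 x
    exact al_const hF hd c h x
  map_star' a := by
    ext1; ext1 x
    exact al_adj hF hd a.2.ac h x

theorem alH_apply (hF : Frm ρ V ω) (hd : DenseRange κ)
    (hadj : ∀ a ∈ 𝒯, (fun x => adjoint (a x)) ∈ 𝒯)
    (hcj : ∀ a ∈ 𝒯, ∀ g, (fun x => V g * a x * V g⁻¹) ∈ 𝒯) (h : H)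
    (b : fieldAlg ι κ hF 𝒯 hadj) (x : G) : (alH hF hd hadj hcj h b).1 x = al κ V h b.1 x := rfl

/-- evaluation at `1` -/
noncomputable def evH (hF : Frm ρ V ω) (hadj : ∀ a ∈ 𝒯, (fun x => adjoint (a x)) ∈ 𝒯) :
    fieldAlg ι κ hF 𝒯 hadj →⋆ₐ[ℂ] (K →L[ℂ] K) where
  toFun b := b.1 1
  map_one' := rfl
  map_mul' a b := rfl
  map_zero' := rfl
  map_add' a b := rfl
  commutes' c := rfl
  map_star' a := rfl

theorem evH_inj (hF : Frm ρ V ω) (hι : DenseRange ι)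
    (hadj : ∀ a ∈ 𝒯, (fun x => adjoint (a x)) ∈ 𝒯) :
    Function.Injective (evH (ι := ι) (κ := κ) hF hadj) := by
  intro a b hab
  have hab' : a.1 1 = b.1 1 := hab
  ext1
  ext1 x
  refine congrFun (hι.equalizer a.2.fd.continuous b.2.fd.continuous ?_) x
  funext γ
  have h1 := a.2.fd.equiv γ 1
  have h2 := b.2.fd.equiv γ 1
  rw [mul_one] at h1 h2
  change a.1 (ι γ) = b.1 (ι γ)
  rw [h1, h2, hab']

end main

end Vale.Agent.P092.VM
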