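import Vale.Agent.P092.VM.Dyn

/-!
P092 (helper971), project MIX: a commutative C*-algebra of operators with two commuting actions of
groups `G`, `H`, both square integrable, contains `C₀(G)`.
-/

set_option linter.all false

open MeasureTheory Filter Topology ContinuousLinearMap WeakDual
open scoped InnerProductSpace ENNReal ZeroAtInfty
open WeakDual.CharacterSpace (compContinuousMap)

namespace Vale.Agent.P092.VM

section act

variable {B G : Type} [CommCStarAlgebra B] [Group G] [TopologicalSpace G] [IsTopologicalGroup G]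

/-- The action on the spectrum. -/
noncomputable def actOf (r : G → (B →⋆ₐ[ℂ] B)) (h1 : ∀ b, r 1 b = b)
    (hm : ∀ g h b, r (g * h) b = r g (r h b)) (hc : ∀ b, Continuous fun g => r g b) :
    Act G (characterSpace ℂ B) where
  u g χ := compContinuousMap (r g⁻¹) χ
  one χ := by
    ext b
    change χ (r 1⁻¹ b) = χ b
    rw [inv_one, h1]
  mul g h χ := by
    ext b
    change χ (r (g * h)⁻¹ b) = χ (r h⁻¹ (r g⁻¹ b))
    rw [mul_inv_rev, hm]
  cont := by
    refine continuous_induced_rng.2 (WeakDual.continuous_of_continuous_eval fun b => ?_)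
    have h2 : Continuous fun q : G × characterSpace ℂ B =>
        (gelfandStarTransform B (r q.1⁻¹ b)) q.2 := by
      have h3 : Continuous fun q : G × characterSpace ℂ B => gelfandStarTransform B (r q.1⁻¹ b) :=
        (StarAlgEquiv.isometry (gelfandStarTransform B)).continuous.comp
          ((hc b).comp (continuous_fst.inv))
      exact h3.eval continuous_snd
    exact h2

variable {r : G → (B →⋆ₐ[ℂ] B)} {h1 : ∀ b, r 1 b = b}
    {hm : ∀ g h b, r (g * h) b = r g (r h b)} {hc : ∀ b, Continuous fun g => r g b}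

theorem actOf_inv (g : G) (χ : characterSpace ℂ B) (b : B) :
    gelfandStarTransform B b ((actOf r h1 hm hc).u g⁻¹ χ) = gelfandStarTransform B (r g b) χ := by
  change χ (r g⁻¹⁻¹ b) = χ (r g b)
  rw [inv_inv]

end act

section intg

variable {B G K : Type} [CommCStarAlgebra B] [Group G] [TopologicalSpace G] [IsTopologicalGroup G]
  [LocallyCompactSpace G] [SecondCountableTopology G] [T2Space G] [MeasurableSpace G]
  [BorelSpace G] [NormedAddCommGroup K] [InnerProductSpace ℂ K] [CompleteSpace K]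
  (Φ₀ : B →⋆ₐ[ℂ] (K →L[ℂ] K)) {r : G → (B →⋆ₐ[ℂ] B)} (h1 : ∀ b, r 1 b = b)
    (hm : ∀ g h b, r (g * h) b = r g (r h b)) (hc : ∀ b, Continuous fun g => r g b)

/-- the calculus of the spectrum -/
noncomputable def cal : C(characterSpace ℂ B, ℂ) →⋆ₐ[ℂ] (K →L[ℂ] K) :=
  Φ₀.comp ((gelfandStarTransform B).symm : C(characterSpace ℂ B, ℂ) →⋆ₐ[ℂ] B)

theorem cal_apply (F : C(characterSpace ℂ B, ℂ)) :
    cal Φ₀ F = Φ₀ ((gelfandStarTransform B).symm F) := rfl

theorem cal_gf (b : B) : cal Φ₀ (gelfandStarTransform B b) = Φ₀ b := by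
  rw [cal_apply, StarAlgEquiv.symm_apply_apply]

theorem cal_inj (hΦ : Function.Injective Φ₀) : Function.Injective (cal Φ₀) := by
  intro x y hxy
  exact (gelfandStarTransform B).symm.injective (hΦ hxy)

/-- the square of the absolute value of an element, a function on the spectrum -/
noncomputable def ab (a : B) : C(characterSpace ℂ B, ℝ) :=
  ⟨fun χ => ‖gelfandStarTransform B a χ‖ ^ 2, by fun_prop⟩

theorem ab_apply (a : B) (χ : characterSpace ℂ B) : ab a χ = ‖gelfandStarTransform B a χ‖ ^ 2 := rfl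

theorem cx_ab (a : B) : cx (ab a) = gelfandStarTransform B (star a * a) := by
  ext χ
  rw [cx_apply, ab_apply, map_mul, map_star, ContinuousMap.mul_apply, ContinuousMap.star_apply]
  rw [RCLike.star_def, Complex.conj_mul']
  norm_cast

theorem qf_ab (ζ : K) (a : B) : qf (cal Φ₀) ζ (ab a) = ‖Φ₀ a ζ‖ ^ 2 := by
  rw [qf, cx_ab, cal_gf, map_mul, map_star, ContinuousLinearMap.mul_apply, star_eq_adjoint,
    adjoint_inner_right, inner_self_eq_norm_sq_to_K]
  norm_cast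

variable {Φ₀} {h1} {hm} {hc}

theorem tr_ab (x : G) (s a : B) :
    (actOf r h1 hm hc).tr x (ab s * ab a) = ab (r x (s * a)) := by
  ext χ
  rw [Act.tr_apply, ContinuousMap.mul_apply, ab_apply, ab_apply, ab_apply, actOf_inv, actOf_inv,
    map_mul, map_mul, ContinuousMap.mul_apply, norm_mul, mul_pow]

theorem exists_ab {S : C(characterSpace ℂ B, ℝ)} (hS : 0 ≤ S) : ∃ s : B, ab s = S := by
  refine ⟨(gelfandStarTransform B).symm (cx (rt S)), ?_⟩
  ext χ
  rw [ab_apply, StarAlgEquiv.apply_symm_apply, cx_apply, Complex.norm_real, Real.norm_eq_abs,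
    sq_abs]
  have h := DFunLike.congr_fun (rt_mul hS) χ
  rw [ContinuousMap.mul_apply] at h
  rw [sq, h]

/-- the integrable element -/
theorem intg_of {μ : Measure G} {a : B} (ha : a ≠ 0)
    (hi : ∀ s : B, ∃ c : ℝ, ∀ ζ, Integrable (fun x => ‖Φ₀ (r x (s * a)) ζ‖ ^ 2) μ ∧
      ∫ x, ‖Φ₀ (r x (s * a)) ζ‖ ^ 2 ∂μ = c * ‖ζ‖ ^ 2) :
    Intg (cal Φ₀) (actOf r h1 hm hc) μ (ab a) where
  nn χ := by
    change (0 : ℝ) ≤ ab a χ
    rw [ab_apply]; positivity
  ne h0 := by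
    apply ha
    apply (gelfandStarTransform B).injective
    rw [map_zero]
    ext χ
    have h2 : ab a χ = 0 := DFunLike.congr_fun h0 χ
    rw [ab_apply] at h2
    exact norm_eq_zero.1 (pow_eq_zero_iff (two_ne_zero) |>.1 h2)
  int S hS := by
    obtain ⟨s, rfl⟩ := exists_ab hS
    obtain ⟨c, hc'⟩ := hi s
    refine ⟨c, fun ζ => ?_⟩
    have e : (fun x => qf (cal Φ₀) ζ ((actOf r h1 hm hc).tr x (ab s * ab a))) =
        fun x => ‖Φ₀ (r x (s * a)) ζ‖ ^ 2 := by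
      funext x
      rw [tr_ab, qf_ab]
    rw [e]
    exact hc' ζ

end intg

section main

variable {B G H K : Type} [CommCStarAlgebra B] [Group G] [TopologicalSpace G]
  [IsTopologicalGroup G] [LocallyCompactSpace G] [SecondCountableTopology G] [T2Space G]
  [MeasurableSpace G] [BorelSpace G] [Group H] [TopologicalSpace H] [IsTopologicalGroup H]
  [LocallyCompactSpace H] [SecondCountableTopology H] [T2Space H] [MeasurableSpace H]
  [BorelSpace H] [NormedAddCommGroup K] [InnerProductSpace ℂ K] [CompleteSpace K]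

/-- **the calculus of `C₀(G)` in the algebra** -/
theorem exists_calc (Φ₀ : B →⋆ₐ[ℂ] (K →L[ℂ] K)) (hΦ : Function.Injective Φ₀)
    {r : G → (B →⋆ₐ[ℂ] B)} (h1 : ∀ b, r 1 b = b)
    (hm : ∀ g h b, r (g * h) b = r g (r h b)) (hc : ∀ b, Continuous fun g => r g b)
    {r' : H → (B →⋆ₐ[ℂ] B)} (h1' : ∀ b, r' 1 b = b)
    (hm' : ∀ g h b, r' (g * h) b = r' g (r' h b)) (hc' : ∀ b, Continuous fun g => r' g b)
    (hcc : ∀ g h b, r g (r' h b) = r' h (r g b))
    (μ : Measure G) [μ.IsHaarMeasure] (ν : Measure H) [ν.IsHaarMeasure] {a a' : B} (ha : a ≠ 0)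
    (hi : ∀ s : B, ∃ c : ℝ, ∀ ζ, Integrable (fun x => ‖Φ₀ (r x (s * a)) ζ‖ ^ 2) μ ∧
      ∫ x, ‖Φ₀ (r x (s * a)) ζ‖ ^ 2 ∂μ = c * ‖ζ‖ ^ 2) (ha' : a' ≠ 0)
    (hi' : ∀ s : B, ∃ c : ℝ, ∀ ζ, Integrable (fun x => ‖Φ₀ (r' x (s * a')) ζ‖ ^ 2) ν ∧
      ∫ x, ‖Φ₀ (r' x (s * a')) ζ‖ ^ 2 ∂ν = c * ‖ζ‖ ^ 2)
    (big : ∀ N : Subgroup G, N.Normal → N ≠ ⊥ → ¬ IsCompact (N : Set G)) :
    ∃ (L : C₀(G, ℂ) →⋆ₙₐ[ℂ] B) (θ : H →* G), Continuous θ ∧
      (∀ ζ, (∀ ψ, Φ₀ (L ψ) ζ = 0) → ζ = 0) ∧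
      (∀ g (ψ ψ' : C₀(G, ℂ)), (∀ x, ψ' x = ψ (g⁻¹ * x)) → r g (L ψ) = L ψ') ∧
      ∀ h (ψ ψ' : C₀(G, ℂ)), (∀ x, ψ' x = ψ (x * θ h)) → r' h (L ψ) = L ψ' := by
  obtain ⟨U, hU⟩ : ∃ U, U = actOf r h1 hm hc := ⟨_, rfl⟩
  obtain ⟨U', hU'⟩ : ∃ U', U' = actOf r' h1' hm' hc' := ⟨_, rfl⟩
  have hcomm : ∀ g h ω, U.u g (U'.u h ω) = U'.u h (U.u g ω) := by
    intro g h χ
    subst hU hU'
    ext b
    change χ (r' h⁻¹ (r g⁻¹ b)) = χ (r g⁻¹ (r' h⁻¹ b))
    rw [hcc]
  obtain ⟨ω₀, hemb, h2, h3⟩ := exists_pt (U := U) (U' := U') (μ := μ) (ν := ν) (cal_inj Φ₀ hΦ)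
    hcomm (by rw [hU]; exact intg_of ha hi) (by rw [hU']; exact intg_of ha' hi') big
  choose t ht using h2
  obtain ⟨L, hL⟩ : ∃ L : C₀(G, ℂ) →⋆ₙₐ[ℂ] B, ∀ ψ,
      gelfandStarTransform B (L ψ) = H171.ext hemb ψ := by
    refine ⟨(((gelfandStarTransform B).symm : C(characterSpace ℂ B, ℂ) →⋆ₐ[ℂ] B) :
      C(characterSpace ℂ B, ℂ) →⋆ₙₐ[ℂ] B).comp (H171.ext hemb), fun ψ => ?_⟩
    exact (gelfandStarTransform B).apply_symm_apply _
  have hval : ∀ ψ x, gelfandStarTransform B (L ψ) (U.u x ω₀) = ψ x := fun ψ x => by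
    rw [hL]; exact H171.ext_apply hemb ψ x
  have hval0 : ∀ ψ χ, χ ∉ Set.range (fun x => U.u x ω₀) → gelfandStarTransform B (L ψ) χ = 0 :=
    fun ψ χ hχ => by rw [hL]; exact H171.ext_zero hemb ψ hχ
  have hinv : ∀ g χ b, gelfandStarTransform B (r g b) χ = gelfandStarTransform B b (U.u g⁻¹ χ) := by
    intro g χ b
    rw [hU, actOf_inv]
  have hinv' : ∀ g χ b,
      gelfandStarTransform B (r' g b) χ = gelfandStarTransform B b (U'.u g⁻¹ χ) := by
    intro g χ b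
    rw [hU', actOf_inv]
  obtain ⟨θ, hθ⟩ : ∃ θ : H →* G, ∀ h, θ h = t h⁻¹ := by
    refine ⟨MonoidHom.mk' (fun h => t h⁻¹) fun g h => ?_, fun h => rfl⟩
    apply hemb.injective
    change U.u (t (g * h)⁻¹) ω₀ = U.u (t g⁻¹ * t h⁻¹) ω₀
    rw [← ht, mul_inv_rev, U'.mul, ht, ← hcomm, ht, U.mul]
  have hθc : Continuous θ := by
    rw [hemb.isInducing.continuous_iff]
    have e : (fun x => U.u x ω₀) ∘ θ = fun h => U'.u h⁻¹ ω₀ := by
      funext h
      change U.u (θ h) ω₀ = U'.u h⁻¹ ω₀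
      rw [hθ, ht]
    rw [e]
    exact (U'.cont₁ ω₀).comp continuous_inv
  refine ⟨L, θ, hθc, ?_, ?_, ?_⟩
  · intro ζ hζ
    refine h3 ζ fun f hf => ?_
    obtain ⟨ψ, hψ⟩ := H171.ext_surj hemb f hf
    rw [← hψ, ← hL, cal_gf]
    exact hζ ψ
  · intro g ψ ψ' hψ
    apply (gelfandStarTransform B).injective
    ext χ
    change gelfandStarTransform B (r g (L ψ)) χ = gelfandStarTransform B (L ψ') χ
    rw [hinv]
    by_cases hχ : χ ∈ Set.range fun x => U.u x ω₀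
    · obtain ⟨x, rfl⟩ := hχ
      change gelfandStarTransform B (L ψ) (U.u g⁻¹ (U.u x ω₀)) =
        gelfandStarTransform B (L ψ') (U.u x ω₀)
      rw [← U.mul, hval, hval, hψ]
    · rw [hval0 ψ' χ hχ, hval0]
      rintro ⟨x, hx⟩
      exact hχ ⟨g * x, by
        change U.u (g * x) ω₀ = χ
        change U.u x ω₀ = U.u g⁻¹ χ at hx
        rw [U.mul, hx, U.u_inv]⟩
  · intro h ψ ψ' hψ
    apply (gelfandStarTransform B).injective
    ext χ
    change gelfandStarTransform B (r' h (L ψ)) χ = gelfandStarTransform B (L ψ') χ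
    rw [hinv']
    by_cases hχ : χ ∈ Set.range fun x => U.u x ω₀
    · obtain ⟨x, rfl⟩ := hχ
      change gelfandStarTransform B (L ψ) (U'.u h⁻¹ (U.u x ω₀)) =
        gelfandStarTransform B (L ψ') (U.u x ω₀)
      rw [← hcomm, ht, ← U.mul, hval, hval, hψ, hθ]
    · rw [hval0 ψ' χ hχ, hval0]
      rintro ⟨x, hx⟩
      exact hχ ⟨x * t h, by
        change U.u (x * t h) ω₀ = χ
        change U.u x ω₀ = U'.u h⁻¹ χ at hx
        rw [U.mul, ← ht, hcomm, hx, U'.u_inv]⟩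

end main

end Vale.Agent.P092.VM
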