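import Vale.Agent.P092.VM.Cal2
import Vale.Agent.P092.H35.Mx.Pair

/-!
P092 (helper971), project MIX: the local theorem `PairStmt`, the calculus of one matched pair of
places.
-/

set_option linter.all false

open MeasureTheory Filter Topology ContinuousLinearMap
open scoped InnerProductSpace ENNReal ZeroAtInfty

namespace Vale.Agent.P092.VM

/-- **[PAIR]** -/
theorem pairStmt : H35.Mx.PairStmt := by
  intro Γ X Y K G H _ _ _ _ _ _ _ _ _ _ _ _ _ _ _ _ _ _ _ _ _ _ _ _ _ V W f ρ f' ρ' ω ω' p κ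
    μ _ _ ν _ _ D hp hκ hpf facG facH t t' ne com
  obtain ⟨F, θ, hθ, h⟩ := exists_pcal D hκ hpf facG t t' ne com
  refine ⟨F 1, θ, hθ, h.nd 1, fun ψ S hS => ?_, fun x ψ ψ' hψ => h.cov x 1 ψ ψ' hψ,
    fun g ψ ψ' hψ => ?_⟩
  · exact h.bi S (fun a ha y => hS a ha y) 1 ψ
  · rw [h.conj g 1 ψ, mul_one, ← one_mul (κ g)]
    exact h.tr 1 (κ g) ψ ψ' hψ

end Vale.Agent.P092.VM
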