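import Vale.Agent.P092.H171.Ext
import Mathlib

/-!
P092 (helper971), project MIX: positive forms of a calculus of `C(Ω)`, `Ω` compact.
-/

set_option linter.all false

open MeasureTheory Filter Topology ContinuousLinearMap
open scoped InnerProductSpace ENNReal

namespace Vale.Agent.P092.VM

variable {Ω K : Type} [TopologicalSpace Ω] [CompactSpace Ω]
  [NormedAddCommGroup K] [InnerProductSpace ℂ K] [CompleteSpace K]

/-- a real function as a complex function -/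
def cx (f : C(Ω, ℝ)) : C(Ω, ℂ) := ⟨fun ω => (f ω : ℂ), by fun_prop⟩

@[simp] theorem cx_apply (f : C(Ω, ℝ)) (ω : Ω) : cx f ω = (f ω : ℂ) := rfl

theorem cx_add (f g : C(Ω, ℝ)) : cx (f + g) = cx f + cx g := by ext ω; simp
theorem cx_sub (f g : C(Ω, ℝ)) : cx (f - g) = cx f - cx g := by ext ω; simp
theorem cx_mul (f g : C(Ω, ℝ)) : cx (f * g) = cx f * cx g := by ext ω; simp
theorem cx_smul (c : ℝ) (f : C(Ω, ℝ)) : cx (c • f) = (c : ℂ) • cx f := by ext ω; simp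
theorem cx_zero : cx (0 : C(Ω, ℝ)) = 0 := by ext ω; simp
theorem cx_one : cx (1 : C(Ω, ℝ)) = 1 := by ext ω; simp
theorem cx_star (f : C(Ω, ℝ)) : star (cx f) = cx f := by
  ext ω
  simp only [ContinuousMap.star_apply, cx_apply, RCLike.star_def, Complex.conj_ofReal]
theorem cx_inj {f : C(Ω, ℝ)} (h : cx f = 0) : f = 0 := by
  ext ω
  have h1 := DFunLike.congr_fun h ω
  simpa using h1

theorem norm_cx_le (f : C(Ω, ℝ)) : ‖cx f‖ ≤ ‖f‖ := by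
  rw [ContinuousMap.norm_le _ (norm_nonneg f)]
  intro ω
  rw [cx_apply, Complex.norm_real]
  exact f.norm_coe_le_norm ω

/-- The quadratic form. -/
noncomputable def qf (Φ : C(Ω, ℂ) →⋆ₐ[ℂ] (K →L[ℂ] K)) (ζ : K) (f : C(Ω, ℝ)) : ℝ :=
  (⟪ζ, Φ (cx f) ζ⟫_ℂ).re

variable (Φ : C(Ω, ℂ) →⋆ₐ[ℂ] (K →L[ℂ] K))

theorem sa (f : C(Ω, ℝ)) : adjoint (Φ (cx f)) = Φ (cx f) := by
  rw [← star_eq_adjoint, ← map_star, cx_star]

theorem qf_add (ζ : K) (f g : C(Ω, ℝ)) : qf Φ ζ (f + g) = qf Φ ζ f + qf Φ ζ g := by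
  rw [qf, cx_add, map_add, ContinuousLinearMap.add_apply, inner_add_right, Complex.add_re]; rfl

theorem qf_sub (ζ : K) (f g : C(Ω, ℝ)) : qf Φ ζ (f - g) = qf Φ ζ f - qf Φ ζ g := by
  rw [qf, cx_sub, map_sub, ContinuousLinearMap.sub_apply, inner_sub_right, Complex.sub_re]; rfl

theorem qf_smul (ζ : K) (c : ℝ) (f : C(Ω, ℝ)) : qf Φ ζ (c • f) = c * qf Φ ζ f := by
  rw [qf, cx_smul, map_smul, ContinuousLinearMap.smul_apply, inner_smul_right,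
    Complex.re_ofReal_mul]; rfl

theorem qf_zero (ζ : K) : qf Φ ζ 0 = 0 := by
  rw [qf, cx_zero, map_zero]; simp

theorem qf_one (ζ : K) : qf Φ ζ 1 = ‖ζ‖ ^ 2 := by
  rw [qf, cx_one, map_one, ContinuousLinearMap.one_apply, inner_self_eq_norm_sq_to_K]
  norm_cast

theorem qf_const (ζ : K) (c : ℝ) : qf Φ ζ (c • 1) = c * ‖ζ‖ ^ 2 := by
  rw [qf_smul, qf_one]

/-- the form of `g * f * g` -/
theorem qf_conj (ζ : K) (f g : C(Ω, ℝ)) : qf Φ (Φ (cx g) ζ) f = qf Φ ζ (g * g * f) := by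
  rw [qf, qf]
  congr 1
  have e : Φ (cx (g * g * f)) = Φ (cx g) * (Φ (cx f) * Φ (cx g)) := by
    rw [← map_mul, ← map_mul]
    congr 1
    ext ω
    simp only [cx_apply, ContinuousMap.mul_apply, Complex.ofReal_mul]
    ring
  rw [e, ContinuousLinearMap.mul_apply, ContinuousLinearMap.mul_apply]
  rw [← adjoint_inner_left (Φ (cx g)), sa]

/-- the square root of a function -/
noncomputable def rt (f : C(Ω, ℝ)) : C(Ω, ℝ) := ⟨fun ω => Real.sqrt (f ω), by fun_prop⟩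

theorem rt_mul {f : C(Ω, ℝ)} (hf : 0 ≤ f) : rt f * rt f = f := by
  ext ω
  exact Real.mul_self_sqrt (hf ω)

theorem qf_nonneg (ζ : K) {f : C(Ω, ℝ)} (hf : 0 ≤ f) : 0 ≤ qf Φ ζ f := by
  have h1 := qf_conj Φ ζ 1 (rt f)
  rw [rt_mul hf, mul_one, qf_one] at h1
  rw [← h1]
  positivity

theorem qf_mono (ζ : K) {f g : C(Ω, ℝ)} (h : f ≤ g) : qf Φ ζ f ≤ qf Φ ζ g := by
  have h1 := qf_nonneg Φ ζ (sub_nonneg.2 h)
  rw [qf_sub] at h1
  linarith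

/-- the vector which localises the form at `g` -/
theorem qf_rt (ζ : K) {g : C(Ω, ℝ)} (hg : 0 ≤ g) (f : C(Ω, ℝ)) :
    qf Φ (Φ (cx (rt g)) ζ) f = qf Φ ζ (g * f) := by
  rw [qf_conj, rt_mul hg]

theorem norm_rt_sq (ζ : K) {g : C(Ω, ℝ)} (hg : 0 ≤ g) :
    ‖Φ (cx (rt g)) ζ‖ ^ 2 = qf Φ ζ g := by
  rw [← qf_one Φ, qf_rt Φ ζ hg, mul_one]

/-- a function with zero form is zero -/
theorem eq_zero_of_qf (hΦ : Function.Injective Φ) {f : C(Ω, ℝ)} (h : ∀ ζ, qf Φ ζ f = 0) :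
    f = 0 := by
  apply cx_inj
  apply hΦ
  rw [map_zero]
  have hs : IsSelfAdjoint (Φ (cx f)) := by
    rw [IsSelfAdjoint, ← map_star, cx_star]
  have h1 : ∀ ζ, ⟪Φ (cx f) ζ, ζ⟫_ℂ = 0 := by
    intro ζ
    have h2 : (⟪Φ (cx f) ζ, ζ⟫_ℂ) = ⟪ζ, Φ (cx f) ζ⟫_ℂ := by
      conv_lhs => rw [← sa Φ f]
      rw [adjoint_inner_left]
    have h3 : (starRingEnd ℂ) ⟪ζ, Φ (cx f) ζ⟫_ℂ = ⟪ζ, Φ (cx f) ζ⟫_ℂ := by
      rw [inner_conj_symm, h2]
    rw [h2, ← Complex.conj_eq_iff_re.1 h3]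
    have h4 := h ζ
    rw [qf] at h4
    rw [h4, Complex.ofReal_zero]
  have h5 := (IsSelfAdjoint.isSymmetric hs).inner_map_self_eq_zero.1 (fun x => h1 x)
  ext x
  exact LinearMap.congr_fun h5 x

theorem exists_pos (hΦ : Function.Injective Φ) {f : C(Ω, ℝ)} (h0 : 0 ≤ f) (h : f ≠ 0) :
    ∃ ζ, 0 < qf Φ ζ f := by
  by_contra hcon
  push Not at hcon
  exact h (eq_zero_of_qf Φ hΦ fun ζ => le_antisymm (hcon ζ) (qf_nonneg Φ ζ h0))

/-- the form detects positivity -/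
theorem nonneg_of_qf (hΦ : Function.Injective Φ) {f : C(Ω, ℝ)} (h : ∀ ζ, 0 ≤ qf Φ ζ f) :
    0 ≤ f := by
  obtain ⟨g, hg⟩ : ∃ g : C(Ω, ℝ), ∀ ω, g ω = max (-f ω) 0 :=
    ⟨⟨fun ω => max (-f ω) 0, by fun_prop⟩, fun ω => rfl⟩
  have hg0 : 0 ≤ g * g * g := by
    intro ω
    change (0 : ℝ) ≤ g ω * g ω * g ω
    have : 0 ≤ g ω := by rw [hg]; exact le_max_right _ _
    positivity
  have h1 : g * g * f = -(g * g * g) := by
    ext ω
    simp only [ContinuousMap.neg_apply, ContinuousMap.mul_apply, hg]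
    rcases le_total (-f ω) 0 with h2 | h2
    · rw [max_eq_right h2]; ring
    · rw [max_eq_left h2]; ring
  have h2 : g * g * g = 0 := by
    refine eq_zero_of_qf Φ hΦ fun ζ => le_antisymm ?_ (qf_nonneg Φ ζ hg0)
    have h3 := h (Φ (cx g) ζ)
    rw [qf_conj, h1] at h3
    have h4 : qf Φ ζ (-(g * g * g)) = - qf Φ ζ (g * g * g) := by
      have := qf_smul Φ ζ (-1) (g * g * g)
      simpa using this
    rw [h4] at h3
    linarith
  intro ω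
  have h3 : g ω * g ω * g ω = 0 := DFunLike.congr_fun h2 ω
  have h4 : g ω = 0 := by
    rcases mul_eq_zero.1 h3 with h | h
    · rcases mul_eq_zero.1 h with h | h <;> exact h
    · exact h
  rw [hg] at h4
  have h5 := le_max_left (-f ω) 0
  rw [h4] at h5
  change (0 : ℝ) ≤ f ω
  linarith

theorem norm_Phi_le (f : C(Ω, ℝ)) : ‖Φ (cx f)‖ ≤ ‖f‖ :=
  (NonUnitalStarAlgHom.norm_apply_le (Φ : C(Ω, ℂ) →⋆ₙₐ[ℂ] (K →L[ℂ] K)) _).trans (norm_cx_le f)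

/-- the form is a continuous linear functional -/
noncomputable def qL (ζ : K) : C(Ω, ℝ) →L[ℝ] ℝ :=
  LinearMap.mkContinuous
    { toFun := qf Φ ζ
      map_add' := qf_add Φ ζ
      map_smul' := fun c f => by rw [qf_smul]; rfl } (‖ζ‖ ^ 2) (by
    intro f
    change ‖qf Φ ζ f‖ ≤ _
    rw [qf, Real.norm_eq_abs]
    calc |(⟪ζ, Φ (cx f) ζ⟫_ℂ).re| ≤ ‖⟪ζ, Φ (cx f) ζ⟫_ℂ‖ := Complex.abs_re_le_norm _
      _ ≤ ‖ζ‖ * ‖Φ (cx f) ζ‖ := norm_inner_le_norm _ _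
      _ ≤ ‖ζ‖ * (‖f‖ * ‖ζ‖) := by
        gcongr
        exact (ContinuousLinearMap.le_opNorm _ _).trans (by gcongr; exact norm_Phi_le Φ f)
      _ = ‖ζ‖ ^ 2 * ‖f‖ := by ring)

@[simp] theorem qL_apply (ζ : K) (f : C(Ω, ℝ)) : qL Φ ζ f = qf Φ ζ f := rfl

end Vale.Agent.P092.VM
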